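import Vale.Agent.P217.Orbit.Jacobian

/-!
# P217 Orbit: iterates of `g` and derivatives in a direction
-/

noncomputable section

namespace Vale.Agent.P217.Orbit

open MvPowerSeries

section Dir

variable {C : Type} [NormedField C] {σ τ : Type} [Fintype τ]

/-- The derivative of `f` at `x0` in the direction `x`. -/
def dir (x0 x : τ → C) (f : MvPowerSeries τ C) : C := ∑ v, ev x0 (pderiv C v f) * x v

variable [IsUltrametricDist C] [CompleteSpace C] (hE : EvalTarget) {x0 : τ → C} (hx : Small x0)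
  (x : τ → C)

include hE hx in
lemma dir_sub {f g : MvPowerSeries τ C} (hf : IntSer f) (hg : IntSer g) :
    dir x0 x (f - g) = dir x0 x f - dir x0 x g := by
  simp only [dir, map_sub, ev_sub' hE hx (intSer_pderiv' hf _) (intSer_pderiv' hg _), sub_mul,
    Finset.sum_sub_distrib]

include hE hx in
lemma dir_X (w : τ) : dir x0 x (MvPowerSeries.X w) = x w := by
  classical
  rw [dir, Finset.sum_eq_single w]
  · rw [pderiv_X_self, ← map_one (MvPowerSeries.C : C →+* MvPowerSeries τ C),
      ((hE C).2.1 τ x0 1 w hx).1, one_mul]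
  · intro v _ hv
    rw [pderiv_X_of_ne (Ne.symm hv)]
    simp [ev]
  · simp

omit [IsUltrametricDist C] [CompleteSpace C] in
lemma dir_zero : dir x0 x (0 : MvPowerSeries τ C) = 0 := by
  simp [dir, ev]

omit [IsUltrametricDist C] [CompleteSpace C] in
lemma dir_pow_char (p : ℕ) [CharP C p] (w : τ) {r : ℕ} (hr : r ≠ 0) :
    dir x0 x ((MvPowerSeries.X w : MvPowerSeries τ C) ^ p ^ r) = 0 := by
  have h0 : ((p ^ r : ℕ) : MvPowerSeries τ C) = 0 := by
    rw [← map_natCast (MvPowerSeries.C : C →+* MvPowerSeries τ C), Nat.cast_pow,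
      CharP.cast_eq_zero, zero_pow hr, map_zero]
  simp [dir, h0, ev]

include hE hx in
lemma dir_subst [Fintype σ] {g : σ → MvPowerSeries τ C}
    (hg : ∀ i, IntSer (g i) ∧ constantCoeff (g i) = 0) {f : MvPowerSeries σ C} (hf : IntSer f) :
    dir x0 x (f.subst g) =
      ∑ i, ev (fun l => ev x0 (g l)) (pderiv C i f) * dir x0 x (g i) := by
  simp only [dir, ev_pderiv_subst hE hg hf hx, Finset.sum_mul, Finset.mul_sum, mul_assoc]
  exact Finset.sum_comm

end Dir

variable {p : ℕ} [Fact p.Prime] {n h : ℕ} {C : Type} [NontriviallyNormedField C]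
  [IsUltrametricDist C] [CompleteSpace C] [CharP C p]

/-- `[p ^ M](z) = gComp M (z ^ (p ^ (h * M)))`. -/
def gComp (ud : Fin (n - h) → C) : ℕ → PowerSeries C
  | 0 => PowerSeries.X
  | M + 1 => (gComp ud M).subst (gs p n h fun l => ud l ^ p ^ (h * M))

variable (hE : EvalTarget) {ud : Fin (n - h) → C} (hud : Small ud)

omit [IsUltrametricDist C] [CompleteSpace C] [CharP C p] in
include hud in
lemma small_pow (r : ℕ) : Small fun l => ud l ^ p ^ r := fun l => by
  rw [norm_pow]
  exact pow_lt_one₀ (norm_nonneg _) (hud l) (pow_ne_zero _ (Fact.out : p.Prime).ne_zero)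

include hE hud in
lemma gComp_props : ∀ M, IntSer (gComp (p := p) ud M : MvPowerSeries Unit C) ∧
    PowerSeries.constantCoeff (gComp (p := p) ud M) = 0
  | 0 => ⟨intSer_X _, PowerSeries.constantCoeff_X⟩
  | M + 1 => by
    obtain ⟨h1, h2⟩ := gComp_props M
    have hs := small_pow (p := p) hud (h * M)
    exact ⟨intSer_psSubst hE h1 (intSer_gs p n h hE hs) (constantCoeff_gs p n h hE hs),
      ps_constantCoeff h2 (constantCoeff_gs p n h hE hs)⟩

include hE in
/-- Frobenius powers of `[p]`. -/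
lemma pmul_pow (hLow : LowDegreeTarget) (hn : h < n) {v : Fin (n - h) → C} (hv : Small v)
    {z : C} (hz : ‖z‖ < 1) (r : ℕ) :
    pmul (lawAt p n h v) p z ^ p ^ r =
      ev (Sum.elim (fun l => v l ^ p ^ r) fun _ => z ^ p ^ (h + r)) (gB p n h C) := by
  have hy : Small (Sum.elim v fun _ : Unit => z ^ p ^ h) := fun s => by
    cases s
    · exact hv _
    · rw [Sum.elim_inr, norm_pow]
      exact pow_lt_one₀ (norm_nonneg _) hz (pow_ne_zero _ (Fact.out : p.Prime).ne_zero)
  rw [pmul_eq p n h hE hLow hv hn hz, ev_pow_char hE hy (intSer_gB p n h), gB_frob]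
  congr 1
  funext s
  cases s
  · rfl
  · simp [← pow_mul, ← pow_add]

include hE hud in
lemma gComp_value (hLow : LowDegreeTarget) (hn : h < n) :
    ∀ M (z : C), ‖z‖ < 1 →
      ev1 (z ^ p ^ (h * M)) (gComp (p := p) ud M) = (pmul (lawAt p n h ud) p)^[M] z
  | 0, z, hz => by
    rw [mul_zero, pow_zero, pow_one, gComp, Function.iterate_zero, id_eq]
    exact ev_X' hE (fun _ => hz) ()
  | M + 1, z, hz => by
    have hF := intSer_lawAt p n h hud
    have hs := small_pow (p := p) hud (h * M)
    have hy : ‖z ^ p ^ (h * (M + 1))‖ < 1 := by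
      rw [norm_pow]
      exact pow_lt_one₀ (norm_nonneg _) hz (pow_ne_zero _ (Fact.out : p.Prime).ne_zero)
    have hp : ‖pmul (lawAt p n h ud) p z‖ < 1 :=
      (ev1_small hE (intSer_mulSer hE hF p) (mulSer_const _ p) hz).trans_lt hz
    rw [Function.iterate_succ_apply, ← gComp_value hLow hn M _ hp, gComp]
    obtain ⟨h1, h2⟩ := gComp_props (p := p) hE hud M
    refine (ev_psSubst hE h1 (intSer_gs p n h hE hs) (constantCoeff_gs p n h hE hs)
      fun _ => hy).trans ?_
    congr 1
    rw [pmul_pow hE hLow hn hud hz, show h + h * M = h * (M + 1) by ring]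
    exact ev1_gs p n h hE hs hy

include hE hud in
lemma gComp_deriv_ne [PerfectRing C p] (hLaw : LawTarget) (hLow : LowDegreeTarget) (h1 : 1 ≤ h)
    (hn : h < n) (hu0 : ud ⟨0, by omega⟩ ≠ 0) : ∀ M (y : C), ‖y‖ < 1 →
      ev (fun _ : Unit => y)
        (pderiv C () (gComp (p := p) ud M : MvPowerSeries Unit C)) ≠ 0
  | 0, y, hy => by
    rw [gComp, show (PowerSeries.X : MvPowerSeries Unit C) = MvPowerSeries.X () from rfl,
      pderiv_X_self, ← map_one (MvPowerSeries.C : C →+* MvPowerSeries Unit C),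
      ((hE C).2.1 Unit _ 1 () fun _ => hy).1]
    exact one_ne_zero
  | M + 1, y, hy => by
    classical
    have hs := small_pow (p := p) hud (h * M)
    obtain ⟨a, b⟩ := gComp_props (p := p) hE hud M
    have hgs := intSer_gs p n h hE hs
    rw [gComp, PowerSeries.subst]
    rw [ev_pderiv_subst hE (fun _ => ⟨hgs, constantCoeff_gs p n h hE hs⟩) a (fun _ => hy) (),
      Fintype.sum_unique]
    refine mul_ne_zero ?_ ?_
    · refine gComp_deriv_ne hLaw hLow h1 hn hu0 M _ ?_
      exact (ev1_small hE hgs (constantCoeff_gs p n h hE hs) hy).trans_lt hy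
    · rw [gs, pderiv_evLeft,
        ((hE C).2.2.2.1 (Fin (n - h)) Unit _ (fun l => ud l ^ p ^ (h * M))
          (intSer_pderiv' (intSer_gB p n h) (Sum.inr ())) hs).2.1 _ fun _ => hy]
      exact deriv_point_ne hE hLaw hLow hn hs h1 (pow_ne_zero _ hu0) hy

end Vale.Agent.P217.Orbit

end
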