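import Vale.Agent.P217.Orbit.Series
import Vale.Agent.P217.Rigidity.Detect
import Mathlib.RingTheory.PowerSeries.Expand

/-!
# P217 Orbit: the series `g` with `[p](z) = g(z ^ (p ^ h))` on the stratum of height at least `h`
-/

noncomputable section

namespace Vale.Agent.P217.Orbit

open MvPowerSeries

lemma map_mulSer' {A B : Type} [CommRing A] [CommRing B] (f : A →+* B) (F : FormalGroup A) :
    ∀ m, PowerSeries.map f (mulSer F m) = mulSer (F.map f) m
  | 0 => by simp [mulSer]
  | m + 1 => by
    rw [mulSer, mulSer, ← map_mulSer' f F m]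
    show MvPowerSeries.map f _ = _
    refine (map_subst (hasSubst_pair (constantCoeff_X _) (mulSer_const F m)) _).trans ?_
    rw [fadd, FormalGroup.map_toPowerSeries]
    congr 1
    funext i
    fin_cases i
    · exact map_X f ()
    · rfl

lemma map_pSer' (p : ℕ) {A B : Type} [CommRing A] [CommRing B] (f : A →+* B) (v : ℕ → A) :
    PowerSeries.map f (pSer p (law p v)) = pSer p (law p fun i => f (v i)) := by
  rw [pSer, pSer, map_mulSer', law_map]

variable (p : ℕ) [Fact p.Prime] (n h : ℕ)

/-- A tuple on all parameters from one on the indices `h, …, n-1`. -/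
def wExt {A : Type} [Zero A] (v : Fin (n - h) → A) (i : Fin (n - 1)) : A :=
  if hi : h ≤ (i : ℕ) + 1 then v ⟨(i : ℕ) + 1 - h, by omega⟩ else 0

/-- The law at a point of the stratum. -/
def lawAt {A : Type} [CommRing A] (v : Fin (n - h) → A) : FormalGroup A :=
  law p (vTuple n (wExt n h v))

/-- Parameter series over `ZMod p`. -/
abbrev Par : Type := MvPowerSeries (Fin (n - h)) (ZMod p)

/-- The series `g` over the parameter ring. -/
def gU : PowerSeries (Par p n h) :=
  PowerSeries.mk fun m =>
    PowerSeries.coeff (p ^ h * m)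
      (pSer p (lawAt p n h fun l => (MvPowerSeries.X l : Par p n h)))

variable (C : Type) [NormedField C] [CharP C p]

/-- The series `g` in the parameters and the point. -/
def gB : MvPowerSeries (Fin (n - h) ⊕ Unit) C := fun D =>
  ZMod.castHom dvd_rfl C
    (coeff (Finsupp.sumFinsuppEquivProdFinsupp D).1
      (PowerSeries.coeff ((Finsupp.sumFinsuppEquivProdFinsupp D).2 ()) (gU p n h)))

variable {C}

/-- The series `g` at a point of the stratum. -/
def gs (v : Fin (n - h) → C) : PowerSeries C := evLeft v (gB p n h C)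

lemma vTuple_wExt_low {A : Type} [CommRing A] (v : Fin (n - h) → A) {i : ℕ} (hi : 1 ≤ i)
    (hih : i < h) (hn : h < n) : vTuple n (wExt n h v) i = 0 := by
  rw [vTuple, dif_pos ⟨hi, by omega⟩, wExt, dif_neg]
  simp only
  omega

lemma vTuple_wExt {A : Type} [CommRing A] (v : Fin (n - h) → A) (h1 : 1 ≤ h) (l : Fin (n - h)) :
    vTuple n (wExt n h v) (h + (l : ℕ)) = v l := by
  have := l.2
  rw [vTuple, dif_pos ⟨by omega, by omega⟩, wExt, dif_pos (by simp only; omega)]
  congr 1
  ext
  simp only
  omega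

lemma map_lawAt {A B : Type} [CommRing A] [CommRing B] (f : A →+* B) (v : Fin (n - h) → A) :
    (fun i => f (vTuple n (wExt n h v) i)) = vTuple n (wExt n h fun l => f (v l)) := by
  funext i
  rw [map_vTuple]
  congr 1
  funext j
  unfold wExt
  split_ifs <;> simp

lemma gB_frob (r : ℕ) :
    MvPowerSeries.map (iterateFrobenius C p r) (gB p n h C) = gB p n h C := by
  ext D
  rw [coeff_map, iterateFrobenius_def]
  show (gB p n h C D) ^ p ^ r = gB p n h C D
  rw [gB, ← map_pow, ZMod.pow_card_pow]

lemma intSer_cast [IsUltrametricDist C] {σ : Type} (f : MvPowerSeries σ (ZMod p)) :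
    IntSer (MvPowerSeries.map (ZMod.castHom dvd_rfl C) f) := fun d => by
  rw [coeff_map]
  exact Rigidity.norm_le_one_of_fixed (Fact.out : p.Prime).two_le (by rw [← map_pow, ZMod.pow_card])

lemma intSer_gB [IsUltrametricDist C] : IntSer (gB p n h C) := fun D => by
  show ‖gB p n h C D‖ ≤ 1
  exact Rigidity.norm_le_one_of_fixed (Fact.out : p.Prime).two_le
    (by rw [gB, ← map_pow, ZMod.pow_card])

lemma coeff_evLeft_gB (v : Fin (n - h) → C) (e : Unit →₀ ℕ) :
    coeff e (evLeft v (gB p n h C)) =
      ev v (MvPowerSeries.map (ZMod.castHom dvd_rfl C) (PowerSeries.coeff (e ()) (gU p n h))) :=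
  tsum_congr fun d => by
    congr 1
    show gB p n h C (Finsupp.sumFinsuppEquivProdFinsupp.symm (d, e)) = _
    rw [gB, Equiv.apply_symm_apply, coeff_map]

lemma coeff_evLeft_pderiv_gB [IsUltrametricDist C] (v : Fin (n - h) → C) (l : Fin (n - h))
    (e : Unit →₀ ℕ) :
    coeff e (evLeft v (pderiv C (Sum.inl l) (gB p n h C))) =
      ev v (pderiv C l (MvPowerSeries.map (ZMod.castHom dvd_rfl C)
        (PowerSeries.coeff (e ()) (gU p n h)))) :=
  tsum_congr fun d => by
    congr 1
    rw [coeff_pderiv, coeff_pderiv]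
    have h1 : Finsupp.sumFinsuppEquivProdFinsupp.symm (d, e) + Finsupp.single (Sum.inl l) 1 =
        Finsupp.sumFinsuppEquivProdFinsupp.symm (d + Finsupp.single l 1, e) := by
      ext (i | i) <;> simp [Finsupp.single_apply_left Sum.inl_injective]
    have h2 : Finsupp.sumFinsuppEquivProdFinsupp.symm (d, e) (Sum.inl l) = d l := rfl
    rw [h1, h2]
    congr 1
    show gB p n h C (Finsupp.sumFinsuppEquivProdFinsupp.symm (d + Finsupp.single l 1, e)) = _
    rw [gB, Equiv.apply_symm_apply, coeff_map]

variable [IsUltrametricDist C] [CompleteSpace C] (hE : EvalTarget) (hLow : LowDegreeTarget)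
  {v : Fin (n - h) → C} (hv : Small v)

/-- Evaluation of parameter series. -/
def evv : Par p n h →+* C :=
  RingHom.mk'
    { toFun := fun a => ev v (MvPowerSeries.map (ZMod.castHom dvd_rfl C) a)
      map_one' := by
        rw [map_one, ← map_one (MvPowerSeries.C : C →+* MvPowerSeries (Fin (n - h)) C), ev,
          tsum_eq_single 0]
        · simp [mon]
        · intro d hd
          rw [coeff_C_of_ne_zero hd, zero_mul]
      map_mul' := fun a b => by
        rw [map_mul]; exact ev_mul' hE hv (intSer_cast p a) (intSer_cast p b) }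
    fun a b => by
      show ev v _ = ev v _ + ev v _
      rw [map_add]; exact ev_add' hE hv (intSer_cast p a) (intSer_cast p b)

lemma evv_X (l : Fin (n - h)) : evv p n h hE hv (MvPowerSeries.X l) = v l := by
  show ev v (MvPowerSeries.map _ _) = _
  rw [map_X]
  exact ev_X' hE hv l

include hE hv in
lemma coeff_gs (m : ℕ) :
    PowerSeries.coeff m (gs p n h v) =
      PowerSeries.coeff (p ^ h * m) (pSer p (lawAt p n h v)) := by
  have e : pSer p (lawAt p n h v) =
      PowerSeries.map (evv p n h hE hv)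
        (pSer p (lawAt p n h fun l => (MvPowerSeries.X l : Par p n h))) := by
    rw [lawAt, lawAt, map_pSer', map_lawAt]
    simp only [evv_X]
  rw [e, PowerSeries.coeff_map, gs, PowerSeries.coeff, coeff_evLeft_gB, Finsupp.single_eq_same,
    gU, PowerSeries.coeff_mk]
  rfl

include hE hLow hv in
lemma pSer_eq (hn : h < n) :
    pSer p (lawAt p n h v) =
      (gs p n h v).subst ((PowerSeries.X : PowerSeries C) ^ p ^ h) := by
  have hne : p ^ h ≠ 0 := pow_ne_zero _ (Fact.out : p.Prime).ne_zero
  rw [← PowerSeries.expand_apply _ hne]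
  ext m
  by_cases hm : p ^ h ∣ m
  · obtain ⟨r, rfl⟩ := hm
    rw [PowerSeries.coeff_expand_mul, coeff_gs p n h hE hv]
  · rw [PowerSeries.coeff_expand_of_not_dvd _ _ _ hm]
    exact (hLow p C).2.2.1 _ h inferInstance (fun i hi hih => vTuple_wExt_low n h v hi hih hn) m hm

include hE hv in
lemma constantCoeff_gs :
    PowerSeries.constantCoeff (gs p n h v) = 0 := by
  rw [← PowerSeries.coeff_zero_eq_constantCoeff_apply, coeff_gs p n h hE hv, mul_zero,
    PowerSeries.coeff_zero_eq_constantCoeff_apply, pSer, mulSer_const]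

include hE hLow hv in
lemma coeff_one_gs (h1 : 1 ≤ h) (hn : h < n) :
    PowerSeries.coeff 1 (gs p n h v) = v ⟨0, by omega⟩ := by
  have hl := (hLow p C).2.1 (vTuple n (wExt n h v)) h h1
  have hbot : Ideal.span (insert (p : C) (vTuple n (wExt n h v) '' {i | 1 ≤ i ∧ i < h})) = ⊥ := by
    rw [Ideal.span_eq_bot]
    rintro x (rfl | ⟨i, hi, rfl⟩)
    · exact CharP.cast_eq_zero C p
    · exact vTuple_wExt_low n h v hi.1 hi.2 hn
  rw [hbot, Ideal.mem_bot, sub_eq_zero] at hl
  rw [coeff_gs p n h hE hv, mul_one]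
  refine hl.trans ?_
  exact vTuple_wExt n h v h1 ⟨0, by omega⟩

include hE hv in
lemma intSer_gs : IntSer (gs p n h v : MvPowerSeries Unit C) := by
  classical
  exact ((hE C).2.2.2.1 (Fin (n - h)) Unit _ v (intSer_gB p n h) hv).1

include hE hv in
lemma ev1_gs {y : C} (hy : ‖y‖ < 1) :
    ev1 y (gs p n h v) = ev (Sum.elim v fun _ => y) (gB p n h C) := by
  classical
  exact ((hE C).2.2.2.1 (Fin (n - h)) Unit _ v (intSer_gB p n h) hv).2.1 _ fun _ => hy

include hE hLow hv in
/-- `[p](z) = g(z ^ q)`. -/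
lemma pmul_eq (hn : h < n) {z : C} (hz : ‖z‖ < 1) :
    pmul (lawAt p n h v) p z = ev (Sum.elim v fun _ => z ^ p ^ h) (gB p n h C) := by
  have hne : p ^ h ≠ 0 := pow_ne_zero _ (Fact.out : p.Prime).ne_zero
  have hX : IntSer ((PowerSeries.X : PowerSeries C) ^ p ^ h : MvPowerSeries Unit C) ∧
      constantCoeff ((PowerSeries.X : PowerSeries C) ^ p ^ h : MvPowerSeries Unit C) = 0 ∧
      ev (fun _ : Unit => z) ((PowerSeries.X : PowerSeries C) ^ p ^ h : MvPowerSeries Unit C) =
        z ^ p ^ h := by
    generalize p ^ h = m at hne ⊢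
    induction m with
    | zero => exact absurd rfl hne
    | succ m ih =>
      rcases Nat.eq_zero_or_pos m with rfl | hm
      · rw [zero_add, pow_one, pow_one]
        exact ⟨intSer_X _, constantCoeff_X _, ev_X' hE (fun _ => hz) ()⟩
      · obtain ⟨a, b, c⟩ := ih (by omega)
        rw [pow_succ, pow_succ]
        refine ⟨intSer_mul' hE a (intSer_X _), ?_, ?_⟩
        · show constantCoeff (_ * _) = 0
          rw [map_mul, b, zero_mul]
        · rw [← c]
          refine (ev_mul' hE (fun _ => hz) a (intSer_X _)).trans ?_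
          rw [show (PowerSeries.X : MvPowerSeries Unit C) = MvPowerSeries.X () from rfl,
            ev_X' hE (fun _ => hz) ()]
  rw [pmul, ← pSer, pSer_eq p n h hE hLow hv hn, ← ev1_gs p n h hE hv (y := z ^ p ^ h)
    (by rw [norm_pow]; exact pow_lt_one₀ (norm_nonneg _) hz hne)]
  refine (ev_psSubst hE (intSer_gs p n h hE hv) hX.1 hX.2.1 fun _ => hz).trans ?_
  rw [hX.2.2]

include hE hLow hv in
/-- First order behaviour in the parameters of the low coefficients of `g`. -/
lemma deriv_coeff (h1 : 1 ≤ h) (hn : h < n) (l : Fin (n - h)) :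
    (∀ m < p ^ (l : ℕ), ‖ev v (pderiv C l (MvPowerSeries.map (ZMod.castHom dvd_rfl C)
        (PowerSeries.coeff m (gU p n h))))‖ < 1) ∧
      ‖ev v (pderiv C l (MvPowerSeries.map (ZMod.castHom dvd_rfl C)
        (PowerSeries.coeff (p ^ (l : ℕ)) (gU p n h))))‖ = 1 := by
  classical
  have hp : p.Prime := Fact.out
  let D : Par p n h → C := fun a =>
    ev v (pderiv C l (MvPowerSeries.map (ZMod.castHom dvd_rfl C) a))
  have hDadd : ∀ a b, D (a + b) = D a + D b := fun a b => by
    simp only [D, map_add]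
    exact ev_add' hE hv (intSer_pderiv' (intSer_cast p a) l) (intSer_pderiv' (intSer_cast p b) l)
  have hDmul : ∀ a b, D (a * b) = evv p n h hE hv a * D b + evv p n h hE hv b * D a := fun a b => by
    simp only [D, map_mul, Derivation.leibniz, smul_eq_mul]
    rw [ev_add' hE hv (intSer_mul' hE (intSer_cast p a) (intSer_pderiv' (intSer_cast p b) l))
      (intSer_mul' hE (intSer_cast p b) (intSer_pderiv' (intSer_cast p a) l)),
      ev_mul' hE hv (intSer_cast p a) (intSer_pderiv' (intSer_cast p b) l),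
      ev_mul' hE hv (intSer_cast p b) (intSer_pderiv' (intSer_cast p a) l)]
    rfl
  have hD1 : ∀ a, ‖D a‖ ≤ 1 := fun a =>
    ((hE C).1 _ v _ _ hv (intSer_pderiv' (intSer_cast p a) l) (intSer_cast p a)).2.2.2.2.2.1
  have hv1 : ∀ a, ‖evv p n h hE hv a‖ ≤ 1 := fun a =>
    ((hE C).1 _ v _ _ hv (intSer_cast p a) (intSer_cast p a)).2.2.2.2.2.1
  have hD0 : D 0 = 0 := by simpa [hD1] using (hDadd 0 0)
  let I : Ideal (Par p n h) :=
    { carrier := {a | ‖evv p n h hE hv a‖ < 1 ∧ ‖D a‖ < 1}
      add_mem' := fun {a b} ha hb => by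
        refine ⟨?_, ?_⟩
        · rw [map_add]
          exact (IsUltrametricDist.norm_add_le_max _ _).trans_lt (max_lt ha.1 hb.1)
        · rw [hDadd]
          exact (IsUltrametricDist.norm_add_le_max _ _).trans_lt (max_lt ha.2 hb.2)
      zero_mem' := ⟨by simp, by simp [hD0]⟩
      smul_mem' := fun a b hb => by
        refine ⟨?_, ?_⟩
        · rw [smul_eq_mul, map_mul, norm_mul]
          exact (mul_le_of_le_one_left (norm_nonneg _) (hv1 a)).trans_lt hb.1
        · rw [smul_eq_mul, hDmul]
          refine (IsUltrametricDist.norm_add_le_max _ _).trans_lt (max_lt ?_ ?_)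
          · rw [norm_mul]
            exact (mul_le_of_le_one_left (norm_nonneg _) (hv1 a)).trans_lt hb.2
          · rw [norm_mul]
            exact (mul_le_of_le_one_right (norm_nonneg _) (hD1 a)).trans_lt hb.1 }
  have h1I : (1 : Par p n h) ∉ I := fun hh => by simpa using hh.1
  have := Ideal.Quotient.nontrivial_iff.2 ((Ideal.ne_top_iff_one I).2 h1I)
  let π := Ideal.Quotient.mk I
  have : CharP (Par p n h ⧸ I) p := by
    refine (CharP.charP_iff_prime_eq_zero hp).2 ?_
    rw [← map_natCast π, ← map_natCast (MvPowerSeries.C : ZMod p →+* Par p n h),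
      ZMod.natCast_self, map_zero, map_zero]
  have hXmem : ∀ a, a ≠ l → (MvPowerSeries.X a : Par p n h) ∈ I := fun a ha => by
    refine ⟨by rw [evv_X]; exact hv a, ?_⟩
    show ‖ev v (pderiv C l (MvPowerSeries.map _ _))‖ < 1
    rw [map_X, pderiv_X_of_ne ha]
    simp [ev]
  let w : Fin (n - h) → Par p n h ⧸ I := fun a => π (MvPowerSeries.X a)
  have hw : pSer p (lawAt p n h w) =
      PowerSeries.map π (pSer p (lawAt p n h fun a => (MvPowerSeries.X a : Par p n h))) := by
    rw [lawAt, lawAt, map_pSer', map_lawAt]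
  have hlow : ∀ i, 1 ≤ i → i < h + (l : ℕ) → vTuple n (wExt n h w) i = 0 := fun i hi hil => by
    by_cases hih : i < h
    · exact vTuple_wExt_low n h w hi hih hn
    · have := l.2
      obtain ⟨a, rfl⟩ : ∃ a, i = h + a := ⟨i - h, by omega⟩
      rw [show h + a = h + ((⟨a, by omega⟩ : Fin (n - h)) : ℕ) from rfl, vTuple_wExt n h w h1]
      exact Ideal.Quotient.eq_zero_iff_mem.2 (hXmem _ (by intro e; have := congrArg Fin.val e;
                                                           simp only at this; omega))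
  refine ⟨fun m hm => ?_, ?_⟩
  · have hmem : PowerSeries.coeff m (gU p n h) ∈ I := by
      refine Ideal.Quotient.eq_zero_iff_mem.1 ?_
      rw [gU, PowerSeries.coeff_mk]
      have := congrArg (PowerSeries.coeff (p ^ h * m)) hw
      rw [PowerSeries.coeff_map] at this
      refine this.symm.trans ?_
      rcases Nat.eq_zero_or_pos m with rfl | hm0
      · rw [mul_zero, PowerSeries.coeff_zero_eq_constantCoeff_apply, pSer, mulSer_const]
      refine (hLow p _).2.2.1 _ (h + (l : ℕ)) inferInstance hlow _ ?_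
      rw [pow_add, mul_dvd_mul_iff_left (pow_ne_zero _ hp.ne_zero)]
      exact fun hd => absurd (Nat.le_of_dvd hm0 hd) (not_le.2 hm)
    exact hmem.2
  · have hl := (hLow p (Par p n h ⧸ I)).2.1 (vTuple n (wExt n h w)) (h + (l : ℕ)) (by omega)
    have hbot : Ideal.span (insert (p : Par p n h ⧸ I)
        (vTuple n (wExt n h w) '' {i | 1 ≤ i ∧ i < h + (l : ℕ)})) = ⊥ := by
      rw [Ideal.span_eq_bot]
      rintro x (rfl | ⟨i, hi, rfl⟩)
      · exact CharP.cast_eq_zero _ p
      · exact hlow i hi.1 hi.2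
    rw [hbot, Ideal.mem_bot, sub_eq_zero, vTuple_wExt n h w h1] at hl
    have hmem : PowerSeries.coeff (p ^ (l : ℕ)) (gU p n h) - MvPowerSeries.X l ∈ I := by
      refine (Ideal.Quotient.eq (I := I)).1 ?_
      rw [gU, PowerSeries.coeff_mk, ← pow_add]
      have := congrArg (PowerSeries.coeff (p ^ (h + (l : ℕ)))) hw
      rw [PowerSeries.coeff_map] at this
      exact this.symm.trans hl
    obtain ⟨-, hs⟩ := hmem
    have e : D (PowerSeries.coeff (p ^ (l : ℕ)) (gU p n h)) =
        D (PowerSeries.coeff (p ^ (l : ℕ)) (gU p n h) - MvPowerSeries.X l) + 1 := by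
      have h2 := hDadd (PowerSeries.coeff (p ^ (l : ℕ)) (gU p n h) - MvPowerSeries.X l)
        (MvPowerSeries.X l)
      rw [sub_add_cancel] at h2
      rw [h2]
      congr 1
      show ev v (pderiv C l (MvPowerSeries.map _ _)) = 1
      rw [map_X, pderiv_X_self, ← map_one (MvPowerSeries.C : C →+* MvPowerSeries (Fin (n - h)) C)]
      exact ((hE C).2.1 _ v 1 l hv).1
    show ‖D _‖ = 1
    rw [e, IsUltrametricDist.norm_add_eq_max_of_norm_ne_norm (by rw [norm_one]; exact hs.ne),
      norm_one, max_eq_right hs.le]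

end Vale.Agent.P217.Orbit

end
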