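import Vale.Agent.P217.Orbit.Series

/-!
# P217 Orbit: implicit functions in scaled coordinates
-/

noncomputable section

namespace Vale.Agent.P217.Orbit

open MvPowerSeries

variable {C : Type} [NontriviallyNormedField C] {σ τ : Type}

omit σ in
lemma mon_smul (t : C) (x : τ → C) (d : τ →₀ ℕ) :
    mon (fun v => t * x v) d = t ^ deg d * mon x d := by
  simp only [mon, Finsupp.prod, mul_pow, Finset.prod_mul_distrib, Finset.prod_pow_eq_pow_sum, deg,
    Finsupp.sum]

omit σ in
lemma deg_single' (i : τ) : deg (Finsupp.single i 1) = 1 := Finsupp.sum_single_index rfl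

omit σ in
lemma eq_zero_of_deg {d : τ →₀ ℕ} (h : deg d = 0) : d = 0 := by
  ext i
  by_contra hi
  exact hi (Finset.sum_eq_zero_iff.1 h i (Finsupp.mem_support_iff.2 hi))

variable [IsUltrametricDist C] [CompleteSpace C] [Fintype σ] [Fintype τ] [DecidableEq σ]
  [DecidableEq τ]

/-- The implicit function of a system with invertible linear part. -/
theorem exists_implicit (hE : EvalTarget) (hF : FormalFixTarget) (Ψ : τ → MvPowerSeries τ C)
    (hΨ : ∀ e, IntSer (Ψ e) ∧ constantCoeff (Ψ e) = 0) (B : τ → τ → C)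
    (hB : ∀ v w, ∑ e, B v e * coeff (Finsupp.single w 1) (Ψ e) = if v = w then 1 else 0)
    (e0 : σ → τ) :
    ∃ (t : C) (X : τ → MvPowerSeries σ C), t ≠ 0 ∧ ‖t‖ < 1 ∧
      (∀ v, IntSer (X v) ∧ constantCoeff (X v) = 0) ∧
      (∀ v i, coeff (Finsupp.single i 1) (X v) = t * B v (e0 i)) ∧
      ∀ (x : τ → C) (w : σ → C), (∀ v, ‖x v‖ < ‖t‖) → (∀ i, ‖w i‖ < ‖t‖ ^ 2) →
        (∀ e, ev x (Ψ e) = ∑ i, if e = e0 i then w i else 0) →
        ∀ v, x v = t * ev (fun i => w i / t ^ 2) (X v) := by
  classical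
  set b : ℝ := 1 + ∑ v, ∑ e, ‖B v e‖ with hb
  have hbpos : 0 < b := by positivity
  obtain ⟨t, ht0, htb⟩ := NormedField.exists_norm_lt C (inv_pos.2 hbpos)
  have htne : t ≠ 0 := norm_pos_iff.1 ht0
  have ht1 : ‖t‖ < 1 := htb.trans_le (inv_le_one_of_one_le₀ (by
    rw [hb]; exact le_add_of_nonneg_right (by positivity)))
  have hBt : ∀ v e, ‖B v e‖ * ‖t‖ ≤ 1 := fun v e => by
    have h1 : ‖B v e‖ ≤ b := by
      refine le_trans ?_ (le_add_of_nonneg_left zero_le_one)
      exact (Finset.single_le_sum (f := fun e => ‖B v e‖) (fun e _ => norm_nonneg _)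
        (Finset.mem_univ e)).trans (Finset.single_le_sum (f := fun v => ∑ e, ‖B v e‖)
          (fun v _ => by positivity) (Finset.mem_univ v))
    calc ‖B v e‖ * ‖t‖ ≤ b * b⁻¹ := mul_le_mul h1 htb.le (norm_nonneg _) hbpos.le
      _ = 1 := mul_inv_cancel₀ hbpos.ne'
  -- the two parts of the map
  let Lv : τ → MvPowerSeries σ C := fun v d =>
    if deg d = 1 then ∑ i, (d i : C) * (t * B v (e0 i)) else 0
  let Nv : τ → MvPowerSeries τ C := fun v d =>
    if deg d ≤ 1 then 0 else ∑ e, B v e * t ^ (deg d - 1) * coeff d (Ψ e)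
  have hL : ∀ v, IntSer (Lv v) ∧ constantCoeff (Lv v) = 0 := fun v => by
    refine ⟨fun d => ?_, by
      rw [← coeff_zero_eq_constantCoeff_apply]
      show (if deg (0 : σ →₀ ℕ) = 1 then ∑ i : σ, ((0 : σ →₀ ℕ) i : C) * (t * B v (e0 i)) else 0) = 0
      rw [if_neg]
      exact zero_ne_one⟩
    show ‖if deg d = 1 then ∑ i, (d i : C) * (t * B v (e0 i)) else 0‖ ≤ 1
    split_ifs
    · refine IsUltrametricDist.norm_sum_le_of_forall_le_of_nonneg zero_le_one fun i _ => ?_
      rw [norm_mul, norm_mul, mul_comm ‖t‖]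
      exact mul_le_one₀ (IsUltrametricDist.norm_natCast_le_one C _) (by positivity) (hBt _ _)
    · simp
  have hN : ∀ v, IntSer (Nv v) ∧ constantCoeff (Nv v) = 0 := fun v => by
    refine ⟨fun d => ?_, by
      rw [← coeff_zero_eq_constantCoeff_apply]
      show (if deg (0 : τ →₀ ℕ) ≤ 1 then 0
        else ∑ e, B v e * t ^ (deg (0 : τ →₀ ℕ) - 1) * coeff 0 (Ψ e)) = 0
      rw [if_pos]
      exact Nat.zero_le 1⟩
    show ‖if deg d ≤ 1 then 0 else ∑ e, B v e * t ^ (deg d - 1) * coeff d (Ψ e)‖ ≤ 1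
    split_ifs with hd
    · simp
    · refine IsUltrametricDist.norm_sum_le_of_forall_le_of_nonneg zero_le_one fun e _ => ?_
      rw [norm_mul, norm_mul, norm_pow]
      refine mul_le_one₀ (le_trans ?_ (hBt v e)) (norm_nonneg _) ((hΨ e).1 d)
      refine mul_le_mul_of_nonneg_left ?_ (norm_nonneg _)
      exact (pow_le_pow_of_le_one (norm_nonneg _) ht1.le (show 1 ≤ deg d - 1 by omega)).trans
        (pow_one _).le
  have hLs : ∀ v i, coeff (Finsupp.single i 1) (Lv v) = t * B v (e0 i) := fun v i => by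
    show (if deg (Finsupp.single i 1) = 1 then _ else 0) = _
    rw [if_pos (deg_single' i), Finset.sum_eq_single i]
    · simp
    · intro l _ hl; simp [Finsupp.single_eq_of_ne hl]
    · simp
  have hNs : ∀ v w, coeff (Finsupp.single w 1) (Nv v) = 0 := fun v w =>
    if_pos (deg_single' w).le
  have hXl : ∀ i : σ, IntSer (MvPowerSeries.X (Sum.inl i) : MvPowerSeries (σ ⊕ τ) C) ∧
      constantCoeff (MvPowerSeries.X (Sum.inl i) : MvPowerSeries (σ ⊕ τ) C) = 0 :=
    fun i => ⟨intSer_X _, constantCoeff_X _⟩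
  have hXr : ∀ i : τ, IntSer (MvPowerSeries.X (Sum.inr i) : MvPowerSeries (σ ⊕ τ) C) ∧
      constantCoeff (MvPowerSeries.X (Sum.inr i) : MvPowerSeries (σ ⊕ τ) C) = 0 :=
    fun i => ⟨intSer_X _, constantCoeff_X _⟩
  let Φ : τ → MvPowerSeries (σ ⊕ τ) C := fun v =>
    (Lv v).subst (fun i => MvPowerSeries.X (Sum.inl i)) -
      (Nv v).subst (fun i => MvPowerSeries.X (Sum.inr i))
  have hΦI : ∀ v, IntSer (Φ v) := fun v =>
    intSer_sub' (intSer_subst hE hXl (hL v).1) (intSer_subst hE hXr (hN v).1)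
  have hΦr : ∀ v w, coeff (Finsupp.single (Sum.inr w) 1) (Φ v) = 0 := fun v w => by
    simp only [Φ, map_sub, NoIdeal.coeff_single_subst (fun i => (hXl i).2),
      NoIdeal.coeff_single_subst (fun i => (hXr i).2), hNs]
    simp [MvPowerSeries.coeff_index_single_X]
  have hΦ0 : ∀ v, constantCoeff (Φ v) = 0 := fun v => by
    simp only [Φ, map_sub, NoIdeal.constantCoeff_subst_eq (fun i => (hXl i).2),
      NoIdeal.constantCoeff_subst_eq (fun i => (hXr i).2), (hL v).2, (hN v).2, sub_zero]
  obtain ⟨X, hX0, hX, hXS, -⟩ := hF C σ τ Φ fun v => ⟨hΦ0 v, hΦr v⟩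
  have hXI : ∀ v, IntSer (X v) := fun v d =>
    hXS (unitBall C) (fun j d => hΦI j d) v d
  refine ⟨t, X, htne, ht1, fun v => ⟨hXI v, hX0 v⟩, fun v i => ?_, fun x w hx hw hxw v => ?_⟩
  · have hg : ∀ s, constantCoeff
        (Sum.elim (fun i : σ => (MvPowerSeries.X i : MvPowerSeries σ C)) X s) = 0 :=
      fun s => by cases s <;> simp [hX0]
    rw [← hX v, NoIdeal.coeff_single_subst hg, Fintype.sum_sum_type]
    simp only [hΦr, zero_mul, Finset.sum_const_zero, add_zero, Sum.elim_inl]
    simp [Φ, NoIdeal.coeff_single_subst (fun i => (hXl i).2),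
      NoIdeal.coeff_single_subst (fun i => (hXr i).2), hNs, hLs,
      MvPowerSeries.coeff_index_single_X]
  set X' : τ → C := fun v => x v / t with hX'
  set W : σ → C := fun i => w i / t ^ 2 with hW
  have hX's : Small X' := fun v => by
    rw [hX', norm_div, div_lt_one ht0]; exact hx v
  have hWs : Small W := fun i => by
    rw [hW, norm_div, norm_pow, div_lt_one (by positivity)]; exact hw i
  have hxX : x = fun v => t * X' v := funext fun v => by rw [hX', mul_div_cancel₀ _ htne]
  have hval : ∀ v, ev (Sum.elim W X') (Φ v) = X' v := fun v => by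
    have hs : Small (Sum.elim W X') := fun s => by cases s <;> simp [hWs _, hX's _]
    rw [show Φ v = _ from rfl, ev_sub' hE hs (intSer_subst hE hXl (hL v).1)
      (intSer_subst hE hXr (hN v).1), ev_subst hE hXl (hL v).1 hs, ev_subst hE hXr (hN v).1 hs]
    simp only [ev_X' hE hs, Sum.elim_inl, Sum.elim_inr]
    have e1 : ev (fun i => W i) (Lv v) = ∑ i, t * B v (e0 i) * W i := by
      rw [← Finset.sum_congr rfl fun i _ => congrArg (· * W i) (hLs v i), ← sum_single_eq_tsum]
      refine tsum_congr fun d => ?_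
      show (if deg d = 1 then _ else 0) * _ = (if deg d = 1 then coeff d (Lv v) else 0) * _
      split_ifs with hd
      · show _ = (if deg d = 1 then _ else 0) * _
        rw [if_pos hd]
      · rfl
    have hxs : Small x := fun v => (hx v).trans ht1
    have h1 : HasSum (fun d => ∑ e, B v e * (t⁻¹ * (coeff d (Ψ e) * mon x d)))
        (∑ e, B v e * (t⁻¹ * ev x (Ψ e))) :=
      hasSum_sum fun e _ => ((summable' hE hxs (hΨ e).1).hasSum.mul_left _).mul_left _
    have h2 : HasSum (fun d => (if deg d = 1 then ∑ e, B v e * coeff d (Ψ e) else 0) * mon X' d)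
        (X' v) := by
      let l : MvPowerSeries τ C := fun d => ∑ e, B v e * coeff d (Ψ e)
      have hl : ∀ d, (if deg d = 1 then ∑ e, B v e * coeff d (Ψ e) else 0) * mon X' d =
          (if deg d = 1 then coeff d l else 0) * mon X' d := fun d => rfl
      have hsum : Summable fun d =>
          (if deg d = 1 then ∑ e, B v e * coeff d (Ψ e) else 0) * mon X' d := by
        refine summable_of_hasFiniteSupport ((Set.toFinite
          (Set.range fun i : τ => Finsupp.single i 1)).subset fun d hd => ?_)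
        by_contra hni
        apply hd
        have : deg d ≠ 1 := fun h1 => hni (by
          obtain ⟨i, hi⟩ : ∃ i, d i ≠ 0 := by
            by_contra hcon
            push Not at hcon
            rw [show d = 0 from Finsupp.ext hcon] at h1
            simp [deg] at h1
          refine ⟨i, Finsupp.ext fun m => ?_⟩
          have hs1 : ∑ l, d l = 1 := by rwa [deg, Finsupp.sum_fintype _ _ fun _ => rfl] at h1
          have h2 : d i + ∑ x ∈ Finset.univ.erase i, d x = 1 := by
            rw [Finset.add_sum_erase _ _ (Finset.mem_univ i)]; exact hs1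
          by_cases hm : i = m
          · subst hm; rw [Finsupp.single_eq_same]; omega
          · have h3 := Finset.single_le_sum (f := fun x => d x) (fun x _ => Nat.zero_le _)
              (Finset.mem_erase.2 ⟨Ne.symm hm, Finset.mem_univ m⟩)
            rw [Finsupp.single_eq_of_ne (Ne.symm hm)]
            omega)
        simp [this]
      convert hsum.hasSum using 1
      rw [tsum_congr hl, sum_single_eq_tsum]
      show _ = ∑ i, (∑ e, B v e * coeff (Finsupp.single i 1) (Ψ e)) * X' i
      simp [hB]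
    have e2 : ev (fun i => X' i) (Nv v) = ∑ e, B v e * (t⁻¹ * ev x (Ψ e)) - X' v := by
      refine ((h1.sub h2).congr_fun fun d => ?_).tsum_eq
      show (if deg d ≤ 1 then 0 else _) * mon X' d = _
      rw [hxX, mon_smul]
      rcases Nat.lt_trichotomy (deg d) 1 with hd | hd | hd
      · have hd0 : d = 0 := eq_zero_of_deg (by omega)
        subst hd0
        simp [deg, (hΨ _).2]
      · rw [if_pos hd.le, if_pos hd, hd, pow_one, zero_mul, Finset.sum_mul, ← Finset.sum_sub_distrib]
        refine (Finset.sum_eq_zero fun e _ => ?_).symm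
        rw [sub_eq_zero]
        field_simp
      · rw [if_neg (by omega), if_neg (by omega), zero_mul, sub_zero, Finset.sum_mul]
        refine Finset.sum_congr rfl fun e _ => ?_
        obtain ⟨m, hm⟩ : ∃ m, deg d = m + 1 := ⟨deg d - 1, by omega⟩
        rw [hm, Nat.add_sub_cancel, pow_succ]
        field_simp
    rw [e1, e2]
    have e3 : ∑ e, B v e * (t⁻¹ * ev x (Ψ e)) = ∑ i, t * B v (e0 i) * W i := by
      simp only [hxw, Finset.mul_sum, mul_ite, mul_zero]
      rw [Finset.sum_comm]
      simp only [Finset.sum_ite_eq', Finset.mem_univ, if_true]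
      refine Finset.sum_congr rfl fun i _ => ?_
      rw [hW]
      field_simp
    rw [e3, sub_sub_cancel]
  have hYs : Small fun v => ev W (X v) := fun v => by
    set r := Finset.univ.fold max (0 : ℝ) fun i => ‖W i‖ with hr
    have hr' : (0 : ℝ) ≤ r ∧ ∀ i ∈ Finset.univ, ‖W i‖ ≤ r := Finset.fold_max_le r |>.1 hr.ge
    exact (norm_ev_le' hE hWs (hXI v) (hX0 v) hr'.1
      fun i => hr'.2 i (Finset.mem_univ i)).trans_lt
      (Finset.fold_max_lt 1 |>.2 ⟨one_pos, fun i _ => hWs i⟩)
  have hY : ∀ v, ev (Sum.elim W fun v => ev W (X v)) (Φ v) = ev W (X v) := fun v => by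
    have hg : ∀ s, IntSer (Sum.elim (fun i : σ => (MvPowerSeries.X i : MvPowerSeries σ C)) X s) ∧
        constantCoeff (Sum.elim (fun i : σ => (MvPowerSeries.X i : MvPowerSeries σ C)) X s) = 0 :=
      fun s => by cases s <;> simp [hX0, hXI, intSer_X]
    conv_rhs => rw [← hX v, ev_subst hE hg (hΦI v) hWs]
    congr 1
    funext s
    cases s <;> simp [ev_X' hE hWs]
  have := congrFun ((hE C).2.2.2.2.1 σ τ Φ (fun v => ⟨hΦI v, hΦr v⟩) W X' _ hWs hX's hYs hval hY) v
  rw [← this, hX', mul_div_cancel₀ _ htne]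

end Vale.Agent.P217.Orbit

end
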