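import Vale.Agent.P217.Orbit.Law

/-!
# P217 Orbit: the two Jacobian inputs

`g` has unit derivative times `u_h` in the point, and the derivatives in the parameters at a basis
of the kernel are independent.
-/

noncomputable section

namespace Vale.Agent.P217.Orbit

open MvPowerSeries

variable {p : ℕ} [Fact p.Prime] {n h : ℕ} {C : Type} [NontriviallyNormedField C]
  [IsUltrametricDist C] [CompleteSpace C] [CharP C p] [PerfectRing C p]
  (hE : EvalTarget) (hLaw : LawTarget) (hLow : LowDegreeTarget) (hn : h < n)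
  {v : Fin (n - h) → C} (hv : Small v)

omit [Fact p.Prime] [CompleteSpace C] [CharP C p] [PerfectRing C p] in
lemma norm_sub_le3 (a b c : C) {R : ℝ} (ha : ‖a‖ ≤ R) (hb : ‖b‖ ≤ R) (hc : ‖c‖ ≤ R) :
    ‖a + b + c‖ ≤ R :=
  (IsUltrametricDist.norm_add_le_max _ _).trans
    (max_le ((IsUltrametricDist.norm_add_le_max _ _).trans (max_le ha hb)) hc)

include hE in
lemma ev1_zero_of_const {f : PowerSeries C} (hf : IntSer f)
    (h0 : PowerSeries.constantCoeff f = 0) : ev1 (0 : C) f = 0 :=
  norm_le_zero_iff.1 ((ev1_small hE hf h0 (by simp)).trans (norm_zero (E := C)).le)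

include hE in
/-- First order expansion of a law in the second variable. -/
lemma exists_padd_right {F : FormalGroup C} (hF : IntSer F.toPowerSeries) {a : C} (ha : ‖a‖ < 1) :
    ∃ β : C, ‖β‖ = 1 ∧ ∀ (b : C) (R : ℝ), ‖b‖ ≤ R → R < 1 →
      ‖padd F a b - a - β * b‖ ≤ R ^ 2 := by
  have hx : Small ![a, 0] := fun i => by fin_cases i <;> simp [ha]
  refine ⟨ev ![a, 0] (pderiv C 1 F.toPowerSeries), ?_, fun b R hb hR => ?_⟩
  · have hd := intSer_pderiv' hF (1 : Fin 2)
    have h1 : IntSer (1 : MvPowerSeries (Fin 2) C) := fun d => by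
      classical
      rw [MvPowerSeries.coeff_one]; split_ifs <;> simp
    have hlt : ‖ev ![a, 0] (pderiv C 1 F.toPowerSeries - 1)‖ < 1 := by
      refine (norm_ev_le' hE hx (intSer_sub' hd h1) ?_ (norm_nonneg a)
        fun i => by fin_cases i <;> simp).trans_lt ha
      rw [map_sub, ← NoIdeal.coeff_single_one, F.lin_coeff_Y, map_one, sub_self]
    rw [ev_sub' hE hx hd h1, ← map_one (MvPowerSeries.C : C →+* MvPowerSeries (Fin 2) C),
      ((hE C).2.1 _ ![a, 0] 1 0 hx).1] at hlt
    have e := IsUltrametricDist.norm_add_eq_max_of_norm_ne_norm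
      (x := ev ![a, 0] (pderiv C 1 F.toPowerSeries) - 1) (y := (1 : C))
      (by rw [norm_one]; exact hlt.ne)
    rwa [sub_add_cancel, norm_one, max_eq_right hlt.le] at e
  · have h := norm_ev_add_sub_le hE hx ((norm_nonneg b).trans hb) hR (y := ![0, b])
      (fun i => by fin_cases i <;> simp [hb, (norm_nonneg b).trans hb]) hF
    have e : (fun i => ![a, 0] i + ![0, b] i) = ![a, b] := by
      funext i; fin_cases i <;> simp
    rw [e, Fin.sum_univ_two] at h
    have ea : ev ![a, 0] F.toPowerSeries = a := padd_zero' hE hF ha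
    simpa [ea, padd] using h

include hE in
lemma norm_padd_sub_add_le {F : FormalGroup C} (hF : IntSer F.toPowerSeries) {a b : C} {R : ℝ}
    (hR : R < 1) (ha : ‖a‖ ≤ R) (hb : ‖b‖ ≤ R) : ‖padd F a b - (a + b)‖ ≤ R ^ 2 := by
  have h := norm_ev_sub_lin_le hE ((norm_nonneg a).trans ha) hR (y := ![a, b])
    (fun i => by fin_cases i <;> simpa) hF
  simpa [Fin.sum_univ_two, F.zero_constantCoeff, F.lin_coeff_X, F.lin_coeff_Y, padd] using h

omit [PerfectRing C p] in
include hE in
/-- First order expansion of `g`. -/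
lemma gB_expand {v' : Fin (n - h) → C} {y y' : C} {R : ℝ} (hv : Small v) (hy : ‖y‖ < 1)
    (hR : R < 1) (hvR : ∀ l, ‖v' l‖ ≤ R) (hyR : ‖y'‖ ≤ R) :
    ‖ev (Sum.elim (fun l => v l + v' l) fun _ => y + y') (gB p n h C) -
        ev (Sum.elim v fun _ => y) (gB p n h C) -
        (∑ l, ev (Sum.elim v fun _ => y) (pderiv C (Sum.inl l) (gB p n h C)) * v' l +
          ev (Sum.elim v fun _ => y) (pderiv C (Sum.inr ()) (gB p n h C)) * y')‖ ≤ R ^ 2 := by
  have hx : Small (Sum.elim v fun _ : Unit => y) := fun s => by cases s <;> simp [hv _, hy]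
  have h := norm_ev_add_sub_le hE hx ((norm_nonneg y').trans hyR) hR
    (y := Sum.elim v' fun _ : Unit => y') (fun s => by cases s <;> simp [hvR _, hyR])
    (intSer_gB p n h)
  have e : (fun i => (Sum.elim v fun _ : Unit => y) i + (Sum.elim v' fun _ : Unit => y') i) =
      Sum.elim (fun l => v l + v' l) fun _ => y + y' := by
    funext s; cases s <;> rfl
  rw [e, Fintype.sum_sum_type] at h
  simpa using h

include hE hLaw hLow hn hv in
/-- `g` turns the twisted sum into the sum. -/
lemma gB_padd {a b : C} (ha : ‖a‖ < 1) (hb : ‖b‖ < 1) :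
    ev (Sum.elim v fun _ => padd (lawAt p n h fun l => v l ^ p ^ h) a b) (gB p n h C) =
      padd (lawAt p n h v) (ev (Sum.elim v fun _ => a) (gB p n h C))
        (ev (Sum.elim v fun _ => b) (gB p n h C)) := by
  have hne : p ^ h ≠ 0 := pow_ne_zero _ (Fact.out : p.Prime).ne_zero
  obtain ⟨z, rfl⟩ : ∃ z, z ^ p ^ h = a :=
    ⟨(iterateFrobeniusEquiv C p h).symm a, (iterateFrobeniusEquiv C p h).apply_symm_apply a⟩
  obtain ⟨w, rfl⟩ : ∃ w, w ^ p ^ h = b :=
    ⟨(iterateFrobeniusEquiv C p h).symm b, (iterateFrobeniusEquiv C p h).apply_symm_apply b⟩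
  rw [norm_pow] at ha hb
  have hz : ‖z‖ < 1 := (pow_lt_one_iff_of_nonneg (norm_nonneg z) hne).1 ha
  have hw : ‖w‖ < 1 := (pow_lt_one_iff_of_nonneg (norm_nonneg w) hne).1 hb
  have hF := intSer_lawAt p n h hv
  rw [← padd_pow p n h hE hv hz hw h, ← pmul_eq p n h hE hLow hv hn (norm_padd_lt hE hF hz hw),
    ← pmul_eq p n h hE hLow hv hn hz, ← pmul_eq p n h hE hLow hv hn hw]
  exact pmul_padd hE hF (lawAt_comm p n h hLaw v) hz hw p

include hE hLaw hLow hn hv in
/-- The derivative of `g` in the point never vanishes when `v_h ≠ 0`. -/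
theorem deriv_point_ne (h1 : 1 ≤ h) (hv0 : v ⟨0, by omega⟩ ≠ 0) {y : C} (hy : ‖y‖ < 1) :
    ev (Sum.elim v fun _ => y) (pderiv C (Sum.inr ()) (gB p n h C)) ≠ 0 := by
  classical
  set g' := ev (Sum.elim v fun _ => y) (pderiv C (Sum.inr ()) (gB p n h C)) with hg'
  set vq : Fin (n - h) → C := fun l => v l ^ p ^ h with hvq
  have hne : p ^ h ≠ 0 := pow_ne_zero _ (Fact.out : p.Prime).ne_zero
  have hvqs : Small vq := fun l => by
    rw [hvq, norm_pow]; exact pow_lt_one₀ (norm_nonneg _) (hv l) hne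
  have hF := intSer_lawAt p n h hv
  have hFq := intSer_lawAt p n h hvqs
  set gy := ev (Sum.elim v fun _ => y) (gB p n h C) with hgy
  have hgy1 : ‖gy‖ < 1 := by
    rw [hgy, ← ev1_gs p n h hE hv hy]
    exact (ev1_small hE (intSer_gs p n h hE hv) (constantCoeff_gs p n h hE hv) hy).trans_lt hy
  obtain ⟨α, hα, hαb⟩ := exists_padd_right hE hFq hy
  obtain ⟨β, hβ, hβb⟩ := exists_padd_right hE hF hgy1
  have key : β * v ⟨0, by omega⟩ = α * g' := by
    rw [← sub_eq_zero]
    refine eq_zero_of_le_sq (K := 1) fun s hs => ?_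
    rw [one_mul]
    set R := ‖s‖ with hR
    have hR0 : 0 ≤ R := norm_nonneg s
    have hsq : R ^ 2 ≤ R := by nlinarith
    -- value at `s`
    have hgs : ‖ev (Sum.elim v fun _ => s) (gB p n h C) - v ⟨0, by omega⟩ * s‖ ≤ R ^ 2 := by
      rw [← ev1_gs p n h hE hv hs]
      have h2 := norm_ev_sub_lin_le hE hR0 hs (y := fun _ : Unit => s) (fun _ => le_rfl)
        (intSer_gs p n h hE hv)
      rw [show constantCoeff (gs p n h v : MvPowerSeries Unit C) = 0 from
        constantCoeff_gs p n h hE hv, sub_zero] at h2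
      rw [← coeff_one_gs p n h hE hLow hv h1 hn]
      simpa [ev1, PowerSeries.coeff] using h2
    have hgsR : ‖ev (Sum.elim v fun _ => s) (gB p n h C)‖ ≤ R := by
      rw [← ev1_gs p n h hE hv hs]
      exact ev1_small hE (intSer_gs p n h hE hv) (constantCoeff_gs p n h hE hv) hs
    -- left hand side
    set a := padd (lawAt p n h vq) y s with ha
    have h3 := hαb s R le_rfl hs
    have hαs : ‖α * s‖ ≤ R := by rw [norm_mul, hα, one_mul]
    have hay : ‖a - y‖ ≤ R := by
      have : a - y = (a - y - α * s) + α * s := by ring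
      rw [this]
      exact (IsUltrametricDist.norm_add_le_max _ _).trans (max_le (h3.trans hsq) hαs)
    have h4 := gB_expand (p := p) hE (v' := fun _ => 0) (y' := a - y) hv hy hs
      (fun _ => by rw [norm_zero]; exact hR0) hay
    simp only [add_zero, mul_zero, Finset.sum_const_zero, zero_add, add_sub_cancel, ← hgy,
      ← hg'] at h4
    have h5 : ev (Sum.elim v fun _ => a) (gB p n h C) =
        padd (lawAt p n h v) gy (ev (Sum.elim v fun _ => s) (gB p n h C)) :=
      gB_padd hE hLaw hLow hn hv hy hs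
    have h6 := hβb _ R hgsR hs
    rw [← h5] at h6
    have hg1 : ‖g'‖ ≤ 1 := by
      have hx : Small (Sum.elim v fun _ : Unit => y) := fun t => by cases t <;> simp [hv _, hy]
      exact ((hE C).1 _ _ _ _ hx (intSer_pderiv' (intSer_gB p n h) _)
        (intSer_gB p n h)).2.2.2.2.2.1
    have e : s * (β * v ⟨0, by omega⟩ - α * g') =
        (ev (Sum.elim v fun _ => a) (gB p n h C) - gy - g' * (a - y))
        + -(ev (Sum.elim v fun _ => a) (gB p n h C) - gy -
            β * ev (Sum.elim v fun _ => s) (gB p n h C))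
        + (g' * (a - y - α * s) +
            -(β * (ev (Sum.elim v fun _ => s) (gB p n h C) - v ⟨0, by omega⟩ * s))) := by
      ring
    rw [e]
    refine norm_sub_le3 _ _ _ h4 (by rw [norm_neg]; exact h6) ?_
    refine (IsUltrametricDist.norm_add_le_max _ _).trans (max_le ?_ ?_)
    · rw [norm_mul]; exact (mul_le_of_le_one_left (norm_nonneg _) hg1).trans h3
    · rw [norm_neg, norm_mul, hβ, one_mul]; exact hgs
  intro h0
  rw [h0, mul_zero] at key
  rcases mul_eq_zero.1 key with h | h
  · rw [h, norm_zero] at hβ; exact zero_ne_one hβ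
  · exact hv0 h

/-- The derivative of `g` in the parameter direction `c`. -/
def delta (v c : Fin (n - h) → C) (y : C) : C :=
  ∑ l, ev (Sum.elim v fun _ => y) (pderiv C (Sum.inl l) (gB p n h C)) * c l

include hE hLaw hLow hn hv in
/-- On roots of `g` the parameter derivative is additive. -/
lemma delta_padd (h1 : 1 ≤ h) {c : Fin (n - h) → C} (hc : ∀ l, ‖c l‖ ≤ 1) {a b : C}
    (ha : ‖a‖ < 1) (hb : ‖b‖ < 1) (ga : ev (Sum.elim v fun _ => a) (gB p n h C) = 0)
    (gb : ev (Sum.elim v fun _ => b) (gB p n h C) = 0) :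
    delta (p := p) v c (padd (lawAt p n h fun l => v l ^ p ^ h) a b) =
      delta (p := p) v c a + delta (p := p) v c b := by
  have hne : p ^ h ≠ 0 := pow_ne_zero _ (Fact.out : p.Prime).ne_zero
  set vq : Fin (n - h) → C := fun l => v l ^ p ^ h with hvq
  have hvqs : Small vq := fun l => by
    rw [hvq, norm_pow]; exact pow_lt_one₀ (norm_nonneg _) (hv l) hne
  have hFq := intSer_lawAt p n h hvqs
  set e := padd (lawAt p n h vq) a b with he
  have he1 : ‖e‖ < 1 := norm_padd_lt hE hFq ha hb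
  have ge : ev (Sum.elim v fun _ => e) (gB p n h C) = 0 := by
    rw [he, gB_padd hE hLaw hLow hn hv ha hb, ga, gb,
      padd_zero' hE (intSer_lawAt p n h hv) (by simp)]
  rw [← sub_eq_zero]
  refine eq_zero_of_le_sq (K := 1) fun s hs => ?_
  rw [one_mul]
  set R := ‖s‖ with hR
  have hR0 : 0 ≤ R := norm_nonneg s
  have hsc : ∀ l, ‖s * c l‖ ≤ R := fun l => by
    rw [norm_mul]; exact mul_le_of_le_one_right (norm_nonneg s) (hc l)
  set vs : Fin (n - h) → C := fun l => v l + s * c l with hvs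
  have hvss : Small vs := small_add hv fun l => (hsc l).trans_lt hs
  have hexp : ∀ (y y' : C), ‖y‖ < 1 → ‖y'‖ ≤ R ^ 2 →
      ev (Sum.elim v fun _ => y) (gB p n h C) = 0 →
      ‖ev (Sum.elim vs fun _ => y + y') (gB p n h C) - s * delta (p := p) v c y‖ ≤ R ^ 2 := by
    intro y y' hy hy' g0
    have hx : Small (Sum.elim v fun _ : Unit => y) := fun t => by cases t <;> simp [hv _, hy]
    have hD := ((hE C).1 _ _ _ _ hx (intSer_pderiv' (intSer_gB p n h) (Sum.inr ()))
      (intSer_gB p n h)).2.2.2.2.2.1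
    have h2 := gB_expand (p := p) hE (v' := fun l => s * c l) (y' := y') hv hy hs hsc
      (hy'.trans (by nlinarith))
    rw [g0, sub_zero] at h2
    have e2 : ∑ l, ev (Sum.elim v fun _ => y) (pderiv C (Sum.inl l) (gB p n h C)) * (s * c l) =
        s * delta (p := p) v c y := by
      rw [delta, Finset.mul_sum]; exact Finset.sum_congr rfl fun l _ => by ring
    rw [e2] at h2
    have e3 : ev (Sum.elim vs fun _ => y + y') (gB p n h C) - s * delta (p := p) v c y =
        (ev (Sum.elim vs fun _ => y + y') (gB p n h C) - (s * delta (p := p) v c y +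
          ev (Sum.elim v fun _ => y) (pderiv C (Sum.inr ()) (gB p n h C)) * y')) +
        ev (Sum.elim v fun _ => y) (pderiv C (Sum.inr ()) (gB p n h C)) * y' := by ring
    rw [e3]
    refine (IsUltrametricDist.norm_add_le_max _ _).trans (max_le h2 ?_)
    rw [norm_mul]
    exact (mul_le_of_le_one_left (norm_nonneg _) hD).trans hy'
  -- the twisted sum moves quadratically
  set e' := padd (lawAt p n h fun l => vs l ^ p ^ h) a b with he'
  have hd : ‖e' - e‖ ≤ R ^ 2 := by
    have hvsq : Small fun l => vs l ^ p ^ h := fun l => by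
      rw [norm_pow]; exact pow_lt_one₀ (norm_nonneg _) (hvss l) hne
    refine norm_padd_param_le p n h hE hvsq hvqs (sq_nonneg R) (fun l => ?_) ha hb
    rw [hvq, hvs]
    simp only
    rw [add_pow_char_pow, add_sub_cancel_left, norm_pow]
    refine (pow_le_pow_left₀ (norm_nonneg _) (hsc l) _).trans ?_
    refine pow_le_pow_of_le_one hR0 hs.le ?_
    exact (Fact.out : p.Prime).two_le.trans (Nat.le_self_pow (by omega) p)
  set A := ev (Sum.elim vs fun _ => a) (gB p n h C) with hA
  set B := ev (Sum.elim vs fun _ => b) (gB p n h C) with hB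
  have hA' := hexp a 0 ha (by rw [norm_zero]; positivity) ga
  have hB' := hexp b 0 hb (by rw [norm_zero]; positivity) gb
  rw [add_zero] at hA' hB'
  have hE' := hexp e (e' - e) he1 hd ge
  rw [add_sub_cancel, he', gB_padd hE hLaw hLow hn hvss ha hb] at hE'
  have hsz : ∀ y, ‖y‖ < 1 → ev (Sum.elim v fun _ => y) (gB p n h C) = 0 →
      ‖ev (Sum.elim vs fun _ => y) (gB p n h C)‖ ≤ R := fun y hy g0 => by
    have := norm_ev_sub_le' hE (x := Sum.elim vs fun _ : Unit => y)
      (y := Sum.elim v fun _ : Unit => y) (fun t => by cases t <;> simp [hvss _, hy])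
      (fun t => by cases t <;> simp [hv _, hy]) (intSer_gB p n h) hR0
      (fun t => by
        rcases t with l | u
        · simpa [hvs] using hsc l
        · simp [hR0])
    rwa [g0, sub_zero] at this
  have hAB := norm_padd_sub_add_le hE (intSer_lawAt p n h hvss) hs (hsz a ha ga) (hsz b hb gb)
  have e4 : s * (delta (p := p) v c e - (delta (p := p) v c a + delta (p := p) v c b)) =
      -(padd (lawAt p n h vs) A B - s * delta (p := p) v c e) +
        (padd (lawAt p n h vs) A B - (A + B)) +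
        ((A - s * delta (p := p) v c a) + (B - s * delta (p := p) v c b)) := by ring
  rw [e4]
  exact norm_sub_le3 _ _ _ (by rw [norm_neg]; exact hE') hAB
    ((IsUltrametricDist.norm_add_le_max _ _).trans (max_le hA' hB'))

include hE hLaw hLow hn hv in
/-- The parameter derivatives at a basis of the kernel of `[p]` are independent. -/
theorem deriv_param_indep (h1 : 1 ≤ h) (z : Fin (n - h) → C) (hz : ∀ i, ‖z i‖ < 1)
    (hker : ∀ i, pmul (lawAt p n h v) p (z i) = 0)
    (hind : ∀ N : Fin (n - h) → ℕ,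
      psum (lawAt p n h v) (fun i => pmul (lawAt p n h v) (N i) (z i)) = 0 → ∀ i, p ∣ N i)
    (c : Fin (n - h) → C)
    (hc : ∀ i, delta (p := p) v c (z i ^ p ^ h) = 0) : c = 0 := by
  classical
  by_contra hc0
  obtain ⟨l₁, hl₁⟩ := Function.ne_iff.1 hc0
  obtain ⟨lm, -, hlm⟩ := Finset.exists_max_image Finset.univ (fun l => ‖c l‖)
    ⟨l₁, Finset.mem_univ _⟩
  have hpos : c lm ≠ 0 := fun h0 => hl₁ (by
    simpa [h0] using hlm l₁ (Finset.mem_univ l₁))
  set c' : Fin (n - h) → C := fun l => c l / c lm with hc'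
  have hc'1 : ∀ l, ‖c' l‖ ≤ 1 := fun l => by
    rw [hc', norm_div, div_le_one (norm_pos_iff.2 hpos)]; exact hlm l (Finset.mem_univ l)
  have hc'z : ∀ i, delta (p := p) v c' (z i ^ p ^ h) = 0 := fun i => by
    have := hc i
    simp only [delta, hc', div_eq_mul_inv, ← mul_assoc, ← Finset.sum_mul] at this ⊢
    rw [this, zero_mul]
  -- the smallest coordinate of norm one
  have hex : ∃ m, ∃ l : Fin (n - h), (l : ℕ) = m ∧ ‖c' l‖ = 1 :=
    ⟨lm, lm, rfl, by simp [hc', hpos]⟩
  obtain ⟨l₀, hl₀m, hl₀⟩ := Nat.find_spec hex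
  have hsmall : ∀ l : Fin (n - h), (l : ℕ) < (l₀ : ℕ) → ‖c' l‖ < 1 := fun l hl => by
    refine (hc'1 l).lt_of_ne fun h1 => ?_
    exact Nat.find_min hex (hl₀m ▸ hl) ⟨l, rfl, h1⟩
  -- the series of the parameter derivative
  let S : MvPowerSeries Unit C :=
    fun e => ∑ l, coeff e (evLeft v (pderiv C (Sum.inl l) (gB p n h C))) * c' l
  have hEL : ∀ l, IntSer (evLeft v (pderiv C (Sum.inl l) (gB p n h C))) ∧
      ∀ y : C, ‖y‖ < 1 → ev (fun _ : Unit => y) (evLeft v (pderiv C (Sum.inl l) (gB p n h C))) =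
        ev (Sum.elim v fun _ => y) (pderiv C (Sum.inl l) (gB p n h C)) := fun l => by
    obtain ⟨h2, h3, -⟩ := (hE C).2.2.2.1 (Fin (n - h)) Unit _ v
      (intSer_pderiv' (intSer_gB p n h) (Sum.inl l)) hv
    exact ⟨h2, fun y hy => h3 _ fun _ => hy⟩
  have hS : IntSer S := fun e => by
    show ‖∑ l, coeff e (evLeft v (pderiv C (Sum.inl l) (gB p n h C))) * c' l‖ ≤ 1
    refine IsUltrametricDist.norm_sum_le_of_forall_le_of_nonneg zero_le_one fun l _ => ?_
    rw [norm_mul]
    exact mul_le_one₀ ((hEL l).1 e) (norm_nonneg _) (hc'1 l)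
  have hSev : ∀ y : C, ‖y‖ < 1 → ev1 y S = delta (p := p) v c' y := fun y hy => by
    refine ((hasSum_sum (s := (Finset.univ : Finset (Fin (n - h)))) fun l _ => ((summable' hE (fun _ => hy) (hEL l).1).hasSum.mul_right
      (c' l))).congr_fun fun d => ?_).tsum_eq.trans ?_
    · show (∑ l, coeff d (evLeft v (pderiv C (Sum.inl l) (gB p n h C))) * c' l) * _ = _
      rw [Finset.sum_mul]
      exact Finset.sum_congr rfl fun l _ => by ring
    · rw [delta]
      exact Finset.sum_congr rfl fun l _ => by rw [← (hEL l).2 y hy]; rfl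
  have hScoef : ∀ m, PowerSeries.coeff m S = ∑ l, ev v (pderiv C l (MvPowerSeries.map
      (ZMod.castHom dvd_rfl C) (PowerSeries.coeff m (gU p n h)))) * c' l := fun m => by
    show (∑ l, coeff (Finsupp.single () m) (evLeft v _) * c' l) = _
    simp only [coeff_evLeft_pderiv_gB, Finsupp.single_eq_same]
  have hnle : ∀ (l : Fin (n - h)) m, ‖ev v (pderiv C l (MvPowerSeries.map
      (ZMod.castHom dvd_rfl C) (PowerSeries.coeff m (gU p n h))))‖ ≤ 1 := fun l m =>
    ((hE C).1 _ v _ _ hv (intSer_pderiv' (intSer_cast p _) l) (intSer_cast p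
      (PowerSeries.coeff m (gU p n h)))).2.2.2.2.2.1
  have hlt : ∀ m, m < p ^ (l₀ : ℕ) → ∀ l, ‖ev v (pderiv C l (MvPowerSeries.map
      (ZMod.castHom dvd_rfl C) (PowerSeries.coeff m (gU p n h)))) * c' l‖ < 1 := fun m hm l => by
    rw [norm_mul]
    rcases lt_or_ge (l : ℕ) (l₀ : ℕ) with hl | hl
    · exact (mul_le_of_le_one_left (norm_nonneg _) (hnle l m)).trans_lt (hsmall l hl)
    · exact (mul_le_of_le_one_right (norm_nonneg _) (hc'1 l)).trans_lt
        ((deriv_coeff p n h hE hLow hv h1 hn l).1 m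
          (hm.trans_le (Nat.pow_le_pow_right (Fact.out : p.Prime).pos hl)))
  have hlow : ∀ m < p ^ (l₀ : ℕ), ‖PowerSeries.coeff m S‖ < 1 := fun m hm => by
    rw [hScoef]
    exact Finset.sum_induction _ (fun x : C => ‖x‖ < 1)
      (fun a b ha hb => (IsUltrametricDist.norm_add_le_max a b).trans_lt (max_lt ha hb))
      (by simp) fun l _ => hlt m hm l
  have hP : ‖PowerSeries.coeff (p ^ (l₀ : ℕ)) S‖ = 1 := by
    rw [hScoef, ← Finset.add_sum_erase _ _ (Finset.mem_univ l₀)]
    set rest := ∑ l ∈ Finset.univ.erase l₀, ev v (pderiv C l (MvPowerSeries.map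
      (ZMod.castHom dvd_rfl C) (PowerSeries.coeff (p ^ (l₀ : ℕ)) (gU p n h)))) * c' l with hrest
    have hlead : ‖ev v (pderiv C l₀ (MvPowerSeries.map (ZMod.castHom dvd_rfl C)
        (PowerSeries.coeff (p ^ (l₀ : ℕ)) (gU p n h)))) * c' l₀‖ = 1 := by
      rw [norm_mul, (deriv_coeff p n h hE hLow hv h1 hn l₀).2, hl₀, mul_one]
    have hr : ‖rest‖ < 1 := by
      rcases (Finset.univ.erase l₀).eq_empty_or_nonempty with he | he
      · rw [hrest, he, Finset.sum_empty, norm_zero]; exact one_pos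
      obtain ⟨l, hl, hle⟩ := IsUltrametricDist.exists_norm_finsetSum_le_of_nonempty he
        (fun l => ev v (pderiv C l (MvPowerSeries.map (ZMod.castHom dvd_rfl C)
          (PowerSeries.coeff (p ^ (l₀ : ℕ)) (gU p n h)))) * c' l)
      refine hle.trans_lt ?_
      rw [norm_mul]
      rcases lt_or_gt_of_ne (fun e => (Finset.ne_of_mem_erase hl) (Fin.ext e) :
          (l : ℕ) ≠ (l₀ : ℕ)) with hll | hll
      · exact (mul_le_of_le_one_left (norm_nonneg _) (hnle l _)).trans_lt (hsmall l hll)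
      · exact (mul_le_of_le_one_right (norm_nonneg _) (hc'1 l)).trans_lt
          ((deriv_coeff p n h hE hLow hv h1 hn l).1 _
            (Nat.pow_lt_pow_right (Fact.out : p.Prime).one_lt hll))
    rw [IsUltrametricDist.norm_add_eq_max_of_norm_ne_norm (by rw [hlead]; exact hr.ne'), hlead,
      max_eq_left hr.le]
  have hroots := ((hE C).2.2.2.2.2.1 S (p ^ (l₀ : ℕ)) hS hlow hP).1
  -- the kernel
  have hF := intSer_lawAt p n h hv
  have hcomm := lawAt_comm p n h hLaw v
  let := ptMonoid hE hF hcomm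
  let P : Fin (n - h) → Pt C := fun i => ⟨z i, hz i⟩
  have hPp : ∀ i, p • P i = 0 := fun i =>
    Subtype.ext ((pmul_eq_nsmul hE hF hcomm (P i) p).symm.trans (hker i))
  let Good : Pt C → Prop := fun x => p • x = 0 ∧ delta (p := p) v c' ((x : C) ^ p ^ h) = 0
  have hne : p ^ h ≠ 0 := pow_ne_zero _ (Fact.out : p.Prime).ne_zero
  have hroot : ∀ x : Pt C, p • x = 0 →
      ev (Sum.elim v fun _ => (x : C) ^ p ^ h) (gB p n h C) = 0 := fun x hx => by
    rw [← pmul_eq p n h hE hLow hv hn x.2, pmul_eq_nsmul hE hF hcomm x p, hx]; rfl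
  have hpow1 : ∀ x : Pt C, ‖(x : C) ^ p ^ h‖ < 1 := fun x => by
    rw [norm_pow]; exact pow_lt_one₀ (norm_nonneg _) x.2 hne
  have hadd : ∀ x x', Good x → Good x' → Good (x + x') := fun x x' hx hx' => by
    refine ⟨by rw [nsmul_add, hx.1, hx'.1, add_zero], ?_⟩
    show delta (p := p) v c' (padd (lawAt p n h v) x x' ^ p ^ h) = 0
    rw [padd_pow p n h hE hv x.2 x'.2 h,
      delta_padd hE hLaw hLow hn hv h1 hc'1 (hpow1 x) (hpow1 x') (hroot x hx.1) (hroot x' hx'.1),
      hx.2, hx'.2, add_zero]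
  have hzero : Good 0 := by
    refine ⟨nsmul_zero p, ?_⟩
    have h2 := delta_padd hE hLaw hLow hn hv h1 hc'1 (hpow1 0) (hpow1 0) (hroot 0 (nsmul_zero p))
      (hroot 0 (nsmul_zero p))
    rw [← padd_pow p n h hE hv (0 : Pt C).2 (0 : Pt C).2 h] at h2
    change delta (p := p) v c' (((0 + 0 : Pt C) : C) ^ p ^ h) = _ at h2
    rw [add_zero, eq_comm, add_eq_left] at h2
    exact h2
  let comb : (Fin (n - h) → Fin p) → Pt C := fun N => ∑ i, (N i : ℕ) • P i
  have hgood : ∀ N, Good (comb N) := fun N => by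
    refine Finset.sum_induction _ Good hadd hzero fun i _ => ?_
    induction (N i : ℕ) with
    | zero => rw [zero_nsmul]; exact hzero
    | succ m ih => rw [succ_nsmul]; exact hadd _ _ ih ⟨hPp i, hc'z i⟩
  have hinj : Function.Injective fun N => (comb N : C) ^ p ^ h := by
    intro N N' hNN
    have hNN' : comb N = comb N' := Subtype.ext ((iterateFrobeniusEquiv C p h).injective hNN)
    have h2 : ∑ i, ((N i : ℕ) + (p - (N' i : ℕ))) • P i = 0 := by
      simp only [add_nsmul, Finset.sum_add_distrib]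
      show comb N + _ = 0
      rw [hNN', ← Finset.sum_add_distrib]
      refine Finset.sum_eq_zero fun i _ => ?_
      rw [← add_nsmul, Nat.add_sub_cancel' (N' i).2.le, hPp]
    funext i
    have h3 := hind (fun i => (N i : ℕ) + (p - (N' i : ℕ))) ?_ i
    · refine Fin.ext ?_
      have hN := (N i).2
      have hN' := (N' i).2
      obtain ⟨q, hq⟩ := h3
      rcases q with _ | _ | q
      · omega
      · omega
      · exfalso
        have : p * 2 ≤ p * (q + 1 + 1) := Nat.mul_le_mul_left p (by omega)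
        omega
    · have h4 := psum_eq_sum hE hF hcomm fun i => ((N i : ℕ) + (p - (N' i : ℕ))) • P i
      rw [h2] at h4
      refine Eq.trans ?_ h4
      congr 1
      funext i
      exact pmul_eq_nsmul hE hF hcomm (P i) _
  have hcard := hroots (Finset.univ.image fun N => (comb N : C) ^ p ^ h) fun y hy => by
    obtain ⟨N, -, rfl⟩ := Finset.mem_image.1 hy
    exact ⟨hpow1 _, (hSev _ (hpow1 _)).trans (hgood N).2⟩
  rw [Finset.card_image_of_injective _ hinj, Finset.card_univ, Fintype.card_fun, Fintype.card_fin,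
    Fintype.card_fin] at hcard
  exact absurd hcard (not_le.2 (Nat.pow_lt_pow_right (Fact.out : p.Prime).one_lt l₀.2))

end Vale.Agent.P217.Orbit

end
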