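import Vale.Agent.P217.Orbit.Fibre

/-!
# P217 Orbit: points of the laws on the stratum
-/

noncomputable section

namespace Vale.Agent.P217.Orbit

open MvPowerSeries

variable {C : Type} [NormedField C] [IsUltrametricDist C] [CompleteSpace C]

/-- Points of a law. -/
abbrev Pt (C : Type) [NormedField C] : Type := {z : C // ‖z‖ < 1}

section Monoid

variable (hE : EvalTarget) {F : FormalGroup C} (hF : IntSer F.toPowerSeries) (hcomm : F.IsComm)

include hE hF in
lemma norm_padd_lt {a b : C} (ha : ‖a‖ < 1) (hb : ‖b‖ < 1) : ‖padd F a b‖ < 1 := by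
  have hy : Small ![a, b] := fun i => by fin_cases i <;> simpa
  exact (norm_ev_le' hE hy hF F.zero_constantCoeff (le_max_of_le_left (norm_nonneg a))
    (fun i => by fin_cases i <;> simp)).trans_lt (max_lt ha hb)

include hE hF in
lemma ev_fadd_X {σ : Type} [Fintype σ] {y : σ → C} (hy : Small y) (s t : σ) :
    ev y (fadd F (MvPowerSeries.X s) (MvPowerSeries.X t)) = padd F (y s) (y t) := by
  rw [ev_fadd hE hF (intSer_X _) (constantCoeff_X _) (intSer_X _) (constantCoeff_X _) hy,
    ev_X' hE hy, ev_X' hE hy]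

include hE hF in
lemma padd_assoc' {a b c : C} (ha : ‖a‖ < 1) (hb : ‖b‖ < 1) (hc : ‖c‖ < 1) :
    padd F (padd F a b) c = padd F a (padd F b c) := by
  have hy : Small ![a, b, c] := fun i => by fin_cases i <;> simpa
  have h := congrArg (ev ![a, b, c]) (fadd_assoc F (constantCoeff_X (0 : Fin 3))
    (constantCoeff_X (1 : Fin 3)) (constantCoeff_X (2 : Fin 3)))
  rwa [ev_fadd hE hF (intSer_fadd hE hF (intSer_X _) (constantCoeff_X _) (intSer_X _)
      (constantCoeff_X _)) (constantCoeff_fadd F (constantCoeff_X _) (constantCoeff_X _))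
      (intSer_X _) (constantCoeff_X _) hy,
    ev_fadd hE hF (intSer_X _) (constantCoeff_X _) (intSer_fadd hE hF (intSer_X _)
      (constantCoeff_X _) (intSer_X _) (constantCoeff_X _))
      (constantCoeff_fadd F (constantCoeff_X _) (constantCoeff_X _)) hy,
    ev_fadd_X hE hF hy, ev_fadd_X hE hF hy, ev_X' hE hy, ev_X' hE hy] at h

include hE hF hcomm in
lemma padd_comm' {a b : C} (ha : ‖a‖ < 1) (hb : ‖b‖ < 1) : padd F a b = padd F b a := by
  have hy : Small ![a, b] := fun i => by fin_cases i <;> simpa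
  have h := congrArg (ev ![a, b]) (fadd_comm F hcomm (constantCoeff_X (0 : Fin 2))
    (constantCoeff_X (1 : Fin 2)))
  rwa [ev_fadd_X hE hF hy, ev_fadd_X hE hF hy] at h

include hE hF in
lemma padd_zero' {a : C} (ha : ‖a‖ < 1) : padd F a 0 = a := by
  have hy : Small fun _ : Unit => a := fun _ => ha
  have h0 : IntSer (0 : MvPowerSeries Unit C) := fun d => by simp
  have h := ev_fadd hE hF (intSer_X ()) (constantCoeff_X ()) h0 (map_zero _) hy
  rw [fadd, FormalGroup.add_zero F
    (PowerSeries.HasSubst.of_constantCoeff_zero (constantCoeff_X _)), ev_X' hE hy] at h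
  simpa [ev] using h.symm

include hE hF hcomm in
/-- The commutative monoid of points. -/
@[reducible] def ptMonoid : AddCommMonoid (Pt C) where
  add a b := ⟨padd F a b, norm_padd_lt hE hF a.2 b.2⟩
  zero := ⟨0, by simp⟩
  add_assoc a b c := Subtype.ext (padd_assoc' hE hF a.2 b.2 c.2)
  add_comm a b := Subtype.ext (padd_comm' hE hF hcomm a.2 b.2)
  add_zero a := Subtype.ext (padd_zero' hE hF a.2)
  zero_add a := Subtype.ext
    ((padd_comm' hE hF hcomm (by show ‖(0 : C)‖ < 1; simp) a.2).trans (padd_zero' hE hF a.2))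
  nsmul := @nsmulRec _ ⟨⟨0, by simp⟩⟩ ⟨fun a b => ⟨padd F a b, norm_padd_lt hE hF a.2 b.2⟩⟩
  nsmul_zero _ := rfl
  nsmul_succ _ _ := rfl

include hE hF in
lemma intSer_mulSer : ∀ m, IntSer (mulSer F m : MvPowerSeries Unit C)
  | 0 => fun d => by simp [mulSer]
  | m + 1 => intSer_fadd hE hF (intSer_X _) (constantCoeff_X _) (intSer_mulSer m) (mulSer_const _ m)

include hE hF hcomm in
lemma pmul_eq_nsmul (a : Pt C) (m : ℕ) :
    letI := ptMonoid hE hF hcomm
    pmul F m (a : C) = ((m • a : Pt C) : C) := by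
  let := ptMonoid hE hF hcomm
  induction m with
  | zero =>
    rw [zero_nsmul]
    show ev1 (a : C) (mulSer F 0) = 0
    simp [mulSer, ev1, ev]
  | succ m ih =>
    rw [succ_nsmul']
    show ev (fun _ : Unit => (a : C)) (mulSer F (m + 1)) = padd F a ((m • a : Pt C) : C)
    rw [mulSer, ← ih]
    refine (ev_fadd hE hF (intSer_X _) (constantCoeff_X _) (intSer_mulSer hE hF m)
      (mulSer_const _ m) fun _ => a.2).trans ?_
    congr 1
    exact ev_X' hE (fun _ => a.2) ()

include hE hF hcomm in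
lemma psum_eq_sum : ∀ {d : ℕ} (z : Fin d → Pt C),
    letI := ptMonoid hE hF hcomm
    psum F (fun i => (z i : C)) = ((∑ i, z i : Pt C) : C)
  | 0, z => by
    let := ptMonoid hE hF hcomm
    rw [Finset.univ_eq_empty, Finset.sum_empty]
    rfl
  | d + 1, z => by
    let := ptMonoid hE hF hcomm
    rw [Fin.sum_univ_succ, psum, psum_eq_sum fun i => z i.succ]
    rfl

include hE hF hcomm in
lemma pmul_padd {a b : C} (ha : ‖a‖ < 1) (hb : ‖b‖ < 1) (m : ℕ) :
    pmul F m (padd F a b) = padd F (pmul F m a) (pmul F m b) := by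
  let := ptMonoid hE hF hcomm
  have e1 := pmul_eq_nsmul hE hF hcomm (⟨a, ha⟩ + ⟨b, hb⟩ : Pt C) m
  have e2 := pmul_eq_nsmul hE hF hcomm ⟨a, ha⟩ m
  have e3 := pmul_eq_nsmul hE hF hcomm ⟨b, hb⟩ m
  refine e1.trans ?_
  rw [nsmul_add]
  exact (congrArg₂ (padd F) e2 e3).symm

end Monoid

variable (p : ℕ) [Fact p.Prime] (n h : ℕ) [CharP C p]

omit [IsUltrametricDist C] [CompleteSpace C] [CharP C p] in
lemma norm_wExt_le {v : Fin (n - h) → C} (hv : ∀ i, ‖v i‖ ≤ 1) (i : Fin (n - 1)) :
    ‖wExt n h v i‖ ≤ 1 := by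
  unfold wExt
  split_ifs <;> simp [hv]

omit [Fact p.Prime] [CompleteSpace C] [CharP C p] in
lemma intSer_lawAt {v : Fin (n - h) → C} (hv : Small v) : IntSer (lawAt p n h v).toPowerSeries :=
  norm_le_one_of_law p (norm_vTuple_le (norm_wExt_le n h fun i => (hv i).le))

omit [IsUltrametricDist C] [CompleteSpace C] [CharP C p] in
lemma lawAt_comm (hLaw : LawTarget) (v : Fin (n - h) → C) : (lawAt p n h v).IsComm :=
  (hLaw p).1 C _

variable (hE : EvalTarget)

include hE in
/-- Frobenius moves the parameters. -/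
lemma padd_pow {v : Fin (n - h) → C} (hv : Small v) {a b : C} (ha : ‖a‖ < 1) (hb : ‖b‖ < 1)
    (r : ℕ) :
    padd (lawAt p n h v) a b ^ p ^ r =
      padd (lawAt p n h fun l => v l ^ p ^ r) (a ^ p ^ r) (b ^ p ^ r) := by
  have hy : Small ![a, b] := fun i => by fin_cases i <;> simpa
  rw [padd, ev_pow_char hE hy (intSer_lawAt p n h hv), padd, ← FormalGroup.map_toPowerSeries,
    lawAt, law_map, map_lawAt]
  simp only [iterateFrobenius_def]
  congr 1
  funext i
  fin_cases i <;> rfl

include hE in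
lemma norm_padd_param_le {v v' : Fin (n - h) → C} (hv : Small v) (hv' : Small v') {R : ℝ}
    (hR : 0 ≤ R) (hvv : ∀ l, ‖v l - v' l‖ ≤ R) {a b : C} (ha : ‖a‖ < 1) (hb : ‖b‖ < 1) :
    ‖padd (lawAt p n h v) a b - padd (lawAt p n h v') a b‖ ≤ R := by
  have hy : Small ![a, b] := fun i => by fin_cases i <;> simpa
  rw [padd, padd, ← ev_sub' hE hy (intSer_lawAt p n h hv) (intSer_lawAt p n h hv')]
  refine IsUltrametricDist.norm_tsum_le_of_forall_le_of_nonneg hR fun d => ?_
  have hm : ‖mon ![a, b] d‖ ≤ 1 := by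
    rw [mon, Finsupp.prod, norm_prod]
    exact Finset.prod_le_one (fun i _ => norm_nonneg _) fun i _ => by
      rw [norm_pow]; exact pow_le_one₀ (norm_nonneg _) (hy i).le
  rw [norm_mul]
  refine (mul_le_of_le_one_right (norm_nonneg _) hm).trans ?_
  have key : ∀ (w : Fin (n - h) → C) (hw : Small w),
      coeff d (lawAt p n h w).toPowerSeries = evv p n h hE hw
        (coeff d (lawAt p n h fun l => (MvPowerSeries.X l : Par p n h)).toPowerSeries) := by
    intro w hw
    rw [← coeff_map, ← FormalGroup.map_toPowerSeries, lawAt, lawAt, law_map, map_lawAt]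
    simp only [evv_X]
  rw [map_sub, key v hv, key v' hv']
  exact norm_ev_sub_le' hE hv hv' (intSer_cast p _) hR hvv

end Vale.Agent.P217.Orbit

end
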