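import Vale.Agent.P217.Orbit.System
import Vale.Agent.P217.Grad

/-!
# P217 Orbit: roots in the universal cover, homomorphisms on points
-/

noncomputable section

namespace Vale.Agent.P217.Orbit

open MvPowerSeries

variable {p : ℕ} [Fact p.Prime] {C : Type} [NontriviallyNormedField C] [IsUltrametricDist C]
  [CompleteSpace C] [CharP C p] [PerfectRing C p]

omit [IsUltrametricDist C] [CompleteSpace C] in
lemma root_pow_self (η : C) (m : ℕ) : root p η m ^ p ^ m = η :=
  iterate_frobeniusEquiv_symm_pow_p_pow C p η m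

omit [IsUltrametricDist C] [CompleteSpace C] in
lemma root_pow_add (η : C) (a b : ℕ) : root p η (a + b) ^ p ^ a = root p η b := by
  rw [root, root, Function.iterate_add_apply]
  exact iterate_frobeniusEquiv_symm_pow_p_pow C p _ a

omit [IsUltrametricDist C] [CompleteSpace C] in
lemma root_small {η : C} (hη : ‖η‖ < 1) (m : ℕ) : ‖root p η m‖ < 1 := by
  have := congrArg norm (root_pow_self (p := p) η m)
  rw [norm_pow] at this
  by_contra hcon
  exact absurd (this ▸ hη) (not_lt.2 (one_le_pow₀ (not_lt.1 hcon)))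

lemma map_isHom {A B : Type} [CommRing A] [CommRing B] (f : A →+* B) {F G : FormalGroup A}
    {φ : PowerSeries A} (hφ : IsHom F G φ) :
    IsHom (F.map f) (G.map f) (PowerSeries.map f φ) := by
  refine ⟨by rw [← PowerSeries.coeff_zero_eq_constantCoeff_apply, PowerSeries.coeff_map,
    PowerSeries.coeff_zero_eq_constantCoeff_apply, hφ.1, map_zero], ?_⟩
  have h2 := congrArg (MvPowerSeries.map f) hφ.2
  rw [PowerSeries.map_subst (PowerSeries.HasSubst.of_constantCoeff_zero F.zero_constantCoeff),
    map_fadd_endo f G (ps_constantCoeff hφ.1 (constantCoeff_X _))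
      (ps_constantCoeff hφ.1 (constantCoeff_X _)),
    PowerSeries.map_subst (PowerSeries.HasSubst.of_constantCoeff_zero (constantCoeff_X _)),
    PowerSeries.map_subst (PowerSeries.HasSubst.of_constantCoeff_zero (constantCoeff_X _)),
    MvPowerSeries.map_X, MvPowerSeries.map_X] at h2
  exact h2

omit [Fact p.Prime] [CharP C p] [PerfectRing C p] in
/-- An integral homomorphism with nonzero linear term has no critical point in the disc. -/
lemma hom_deriv_ne (hE : EvalTarget) {F G : FormalGroup C} (hF : IntSer F.toPowerSeries)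
    (hG : IntSer G.toPowerSeries) {φ : PowerSeries C} (hi : IntSer φ) (hφ : IsHom F G φ)
    (h1 : PowerSeries.coeff 1 φ ≠ 0) {y : C} (hy : ‖y‖ < 1) :
    ev (fun _ : Unit => y) (pderiv C () (φ : MvPowerSeries Unit C)) ≠ 0 := by
  have hys : Small fun _ : Unit => y := fun _ => hy
  have hφy : ‖ev1 y φ‖ < 1 := (ev1_small hE hi hφ.1 hy).trans_lt hy
  obtain ⟨α, hα, hαb⟩ := exists_padd_right hE hF hy
  obtain ⟨β, hβ, hβb⟩ := exists_padd_right hE hG hφy
  set g' := ev (fun _ : Unit => y) (pderiv C () (φ : MvPowerSeries Unit C)) with hg'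
  have key : β * PowerSeries.coeff 1 φ = α * g' := by
    rw [← sub_eq_zero]
    refine eq_zero_of_le_sq (K := 1) fun s hs => ?_
    rw [one_mul]
    set R := ‖s‖ with hR
    have hR0 : 0 ≤ R := norm_nonneg s
    have hsq : R ^ 2 ≤ R := by nlinarith
    have hφs : ‖ev1 s φ - PowerSeries.coeff 1 φ * s‖ ≤ R ^ 2 := by
      have h2 := norm_ev_sub_lin_le hE hR0 hs (y := fun _ : Unit => s) (fun _ => le_rfl) hi
      rw [show constantCoeff (φ : MvPowerSeries Unit C) = 0 from hφ.1, sub_zero] at h2
      simpa [ev1, PowerSeries.coeff] using h2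
    have h3 := hαb s R le_rfl hs
    have hay : ‖padd F y s - y‖ ≤ R := by
      have e : padd F y s - y = (padd F y s - y - α * s) + α * s := by ring
      rw [e]
      exact (IsUltrametricDist.norm_add_le_max _ _).trans
        (max_le (h3.trans hsq) (by rw [norm_mul, hα, one_mul]))
    have h4 := norm_ev_add_sub_le hE hys hR0 hs (y := fun _ : Unit => padd F y s - y)
      (fun _ => hay) hi
    rw [Fintype.sum_unique] at h4
    simp only [add_sub_cancel] at h4
    have h6 := hβb _ R (ev1_small hE hi hφ.1 hs) hs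
    rw [← hφ.ev_padd hE hF hG hi hy hs] at h6
    have hg1 : ‖g'‖ ≤ 1 := ((hE C).1 _ _ _ _ hys (intSer_pderiv' hi ()) hi).2.2.2.2.2.1
    have e : s * (β * PowerSeries.coeff 1 φ - α * g') =
        (ev1 (padd F y s) φ - ev1 y φ - g' * (padd F y s - y)) +
          -(ev1 (padd F y s) φ - ev1 y φ - β * ev1 s φ) +
          (g' * (padd F y s - y - α * s) + -(β * (ev1 s φ - PowerSeries.coeff 1 φ * s))) := by
      ring
    rw [e]
    refine norm_sub_le3 _ _ _ h4 (by rw [norm_neg]; exact h6) ?_
    refine (IsUltrametricDist.norm_add_le_max _ _).trans (max_le ?_ ?_)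
    · rw [norm_mul]; exact (mul_le_of_le_one_left (norm_nonneg _) hg1).trans h3
    · rw [norm_neg, norm_mul, hβ, one_mul]; exact hφs
  intro h0
  rw [h0, mul_zero] at key
  rcases mul_eq_zero.1 key with h | h
  · rw [h, norm_zero] at hβ; exact zero_ne_one hβ
  · exact h1 h

omit [Fact p.Prime] [CharP C p] [PerfectRing C p] in
lemma norm_padd_sub_left_le (hE : EvalTarget) {F : FormalGroup C} (hF : IntSer F.toPowerSeries)
    {a b : C} (ha : ‖a‖ < 1) (hb : ‖b‖ < 1) : ‖padd F a b - a‖ ≤ ‖b‖ := by
  have h := norm_ev_sub_le' hE (x := ![a, b]) (y := ![a, 0])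
    (fun i => by fin_cases i <;> simpa) (fun i => by fin_cases i <;> simp [ha]) hF (norm_nonneg b)
    (fun i => by fin_cases i <;> simp)
  rwa [show ev ![a, 0] F.toPowerSeries = a from padd_zero' hE hF ha] at h

omit [Fact p.Prime] [CharP C p] [PerfectRing C p] in
/-- A homomorphism commutes with multiples on points. -/
lemma hom_pmul (hE : EvalTarget) {F G : FormalGroup C} (hF : IntSer F.toPowerSeries)
    (hG : IntSer G.toPowerSeries) {φ : PowerSeries C} (hi : IntSer φ) (hφ : IsHom F G φ) (m : ℕ)
    {z : C} (hz : ‖z‖ < 1) : ev1 (pmul F m z) φ = pmul G m (ev1 z φ) := by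
  have h := congrArg (ev (fun _ : Unit => z)) (hφ.subst_mulSer m)
  rwa [ev_psSubst hE hi (intSer_mulSer hE hF m) (mulSer_const _ m) (fun _ => hz),
    ev_psSubst hE (intSer_mulSer hE hG m) hi hφ.1 (fun _ => hz)] at h

end Vale.Agent.P217.Orbit

end
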