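import Vale.Agent.P217.Targets
import Vale.Agent.P217.HomPoints
import Vale.Agent.P217.NoIdeal.Chain

/-!
# P217 Orbit: shifted series, first order expansions, Frobenius on values
-/

noncomputable section

namespace Vale.Agent.P217.Orbit

open MvPowerSeries Filter Topology

variable {C : Type} [NormedField C] {σ τ : Type}

/-- `f` expanded around `x`. -/
def shift (x : σ → C) (f : MvPowerSeries σ C) : MvPowerSeries σ C :=
  evLeft x (f.subst fun i =>
    (MvPowerSeries.X (Sum.inl i) + MvPowerSeries.X (Sum.inr i) : MvPowerSeries (σ ⊕ σ) C))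

lemma pderiv_evLeft (x : σ → C) (f : MvPowerSeries (σ ⊕ τ) C) (t : τ) :
    pderiv C t (evLeft x f) = evLeft x (pderiv C (Sum.inr t) f) := by
  ext e
  rw [coeff_pderiv]
  show (∑' d, _) * _ = ∑' d, _
  rw [← tsum_mul_right]
  refine tsum_congr fun d => ?_
  rw [coeff_pderiv]
  have h1 : Finsupp.sumFinsuppEquivProdFinsupp.symm (d, e) + Finsupp.single (Sum.inr t) 1 =
      Finsupp.sumFinsuppEquivProdFinsupp.symm (d, e + Finsupp.single t 1) := by
    ext (i | i) <;> simp [Finsupp.single_apply_left Sum.inr_injective]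
  have h2 : Finsupp.sumFinsuppEquivProdFinsupp.symm (d, e) (Sum.inr t) = e t := rfl
  rw [h1, h2]
  ring

variable [IsUltrametricDist C] [CompleteSpace C] [Fintype σ] [Fintype τ]
variable (hE : EvalTarget)

omit [CompleteSpace C] [Fintype σ] in
lemma intSer_pderiv' {f : MvPowerSeries σ C} (hf : IntSer f) (i : σ) :
    IntSer (pderiv C i f) := fun d => by
  rw [coeff_pderiv, norm_mul]
  exact mul_le_one₀ (hf _) (norm_nonneg _)
    (by exact_mod_cast IsUltrametricDist.norm_natCast_le_one C (d i + 1))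

include hE

lemma ev_add' {x : σ → C} (hx : Small x) {f g : MvPowerSeries σ C} (hf : IntSer f)
    (hg : IntSer g) : ev x (f + g) = ev x f + ev x g :=
  ((hE C).1 σ x f g hx hf hg).2.2.2.1

lemma ev_mul' {x : σ → C} (hx : Small x) {f g : MvPowerSeries σ C} (hf : IntSer f)
    (hg : IntSer g) : ev x (f * g) = ev x f * ev x g :=
  ((hE C).1 σ x f g hx hf hg).2.2.2.2.1

lemma intSer_add' {f g : MvPowerSeries σ C} (hf : IntSer f) (hg : IntSer g) : IntSer (f + g) :=
  ((hE C).1 σ 0 f g (fun _ => by simp) hf hg).1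

lemma intSer_mul' {f g : MvPowerSeries σ C} (hf : IntSer f) (hg : IntSer g) : IntSer (f * g) :=
  ((hE C).1 σ 0 f g (fun _ => by simp) hf hg).2.1

omit [CompleteSpace C] [Fintype σ] hE in
lemma intSer_sub' {f g : MvPowerSeries σ C} (hf : IntSer f) (hg : IntSer g) : IntSer (f - g) :=
  fun d => by
    rw [map_sub, sub_eq_add_neg]
    exact (IsUltrametricDist.norm_add_le_max _ _).trans (max_le (hf d) (by simpa using hg d))

lemma ev_sub' {x : σ → C} (hx : Small x) {f g : MvPowerSeries σ C} (hf : IntSer f)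
    (hg : IntSer g) : ev x (f - g) = ev x f - ev x g := by
  have h := ev_add' hE hx (intSer_sub' hf hg) hg
  rw [sub_add_cancel] at h
  rw [h, add_sub_cancel_right]

lemma summable' {x : σ → C} (hx : Small x) {f : MvPowerSeries σ C} (hf : IntSer f) :
    Summable fun d => coeff d f * mon x d :=
  ((hE C).1 σ x f f hx hf hf).2.2.1

lemma ev_X' {x : σ → C} (hx : Small x) (i : σ) : ev x (MvPowerSeries.X i) = x i :=
  ((hE C).2.1 σ x 0 i hx).2

lemma norm_ev_le' {x : σ → C} (hx : Small x) {f : MvPowerSeries σ C} (hf : IntSer f)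
    (h0 : constantCoeff f = 0) {r : ℝ} (hr0 : 0 ≤ r) (hr : ∀ i, ‖x i‖ ≤ r) : ‖ev x f‖ ≤ r :=
  ((hE C).1 σ x f f hx hf hf).2.2.2.2.2.2.1 h0 r hr0 hr

lemma norm_ev_sub_le' {x y : σ → C} (hx : Small x) (hy : Small y) {f : MvPowerSeries σ C}
    (hf : IntSer f) {r : ℝ} (hr0 : 0 ≤ r) (hr : ∀ i, ‖x i - y i‖ ≤ r) :
    ‖ev x f - ev y f‖ ≤ r :=
  ((hE C).1 σ x f f hx hf hf).2.2.2.2.2.2.2 y hy r hr0 hr

lemma intSer_shiftArg (i : σ) :
    IntSer (MvPowerSeries.X (Sum.inl i) + MvPowerSeries.X (Sum.inr i) :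
      MvPowerSeries (σ ⊕ σ) C) ∧
    constantCoeff (MvPowerSeries.X (Sum.inl i) + MvPowerSeries.X (Sum.inr i) :
      MvPowerSeries (σ ⊕ σ) C) = 0 :=
  ⟨intSer_add' hE (intSer_X _) (intSer_X _), by simp⟩

lemma intSer_shift {x : σ → C} (hx : Small x) {f : MvPowerSeries σ C} (hf : IntSer f) :
    IntSer (shift x f) := by
  classical
  exact ((hE C).2.2.2.1 σ σ _ x (intSer_subst hE (intSer_shiftArg hE) hf) hx).1

omit [CompleteSpace C] [Fintype σ] hE in
lemma small_add {x y : σ → C} (hx : Small x) (hy : Small y) : Small fun i => x i + y i :=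
  fun i => (IsUltrametricDist.norm_add_le_max _ _).trans_lt (max_lt (hx i) (hy i))

lemma ev_shift {x y : σ → C} (hx : Small x) (hy : Small y) {f : MvPowerSeries σ C}
    (hf : IntSer f) : ev y (shift x f) = ev (fun i => x i + y i) f := by
  classical
  have hs : Small (Sum.elim x y) := fun s => by cases s <;> simp [hx _, hy _]
  rw [shift, ((hE C).2.2.2.1 σ σ _ x (intSer_subst hE (intSer_shiftArg hE) hf) hx).2.1 y hy,
    ev_subst hE (intSer_shiftArg hE) hf hs]
  congr 1
  funext i
  rw [ev_add' hE hs (intSer_X _) (intSer_X _), ev_X' hE hs, ev_X' hE hs, Sum.elim_inl,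
    Sum.elim_inr]

lemma coeff_single_shift {x : σ → C} (hx : Small x) {f : MvPowerSeries σ C} (hf : IntSer f)
    (i : σ) : coeff (Finsupp.single i 1) (shift x f) = ev x (pderiv C i f) := by
  classical
  have hs : Small (Sum.elim x fun _ : σ => (0 : C)) := fun s => by cases s <;> simp [hx _]
  rw [shift, ((hE C).2.2.2.1 σ σ _ x (intSer_subst hE (intSer_shiftArg hE) hf) hx).2.2.2 i,
    NoIdeal.pderiv_subst (fun l => (intSer_shiftArg hE l).2), Finset.sum_eq_single i]
  · rw [map_add, pderiv_X_of_ne (by simp), pderiv_X_self, zero_add, mul_one,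
      ev_subst hE (intSer_shiftArg hE) (intSer_pderiv' hf i) hs]
    congr 1
    funext l
    rw [ev_add' hE hs (intSer_X _) (intSer_X _), ev_X' hE hs, ev_X' hE hs, Sum.elim_inl,
      Sum.elim_inr, add_zero]
  · intro l _ hl
    rw [map_add, pderiv_X_of_ne (by simp), pderiv_X_of_ne (by simpa using hl), add_zero, mul_zero]
  · simp

lemma constantCoeff_shift {x : σ → C} (hx : Small x) {f : MvPowerSeries σ C} (hf : IntSer f) :
    constantCoeff (shift x f) = ev x f := by
  classical
  have hs : Small (Sum.elim x fun _ : σ => (0 : C)) := fun s => by cases s <;> simp [hx _]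
  rw [shift, ((hE C).2.2.2.1 σ σ _ x (intSer_subst hE (intSer_shiftArg hE) hf) hx).2.2.1,
    ev_subst hE (intSer_shiftArg hE) hf hs]
  congr 1
  funext l
  rw [ev_add' hE hs (intSer_X _) (intSer_X _), ev_X' hE hs, ev_X' hE hs, Sum.elim_inl,
    Sum.elim_inr, add_zero]

omit hE in
omit [IsUltrametricDist C] [CompleteSpace C] in
lemma sum_single_eq_tsum [DecidableEq σ] (y : σ → C) (f : MvPowerSeries σ C) :
    (∑' d, (if deg d = 1 then coeff d f else 0) * mon y d) =
      ∑ i, coeff (Finsupp.single i 1) f * y i := by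
  classical
  rw [tsum_eq_sum (s := Finset.univ.image fun i : σ => Finsupp.single i 1)]
  · rw [Finset.sum_image fun a _ b _ h => Finsupp.single_left_injective one_ne_zero h]
    refine Finset.sum_congr rfl fun i _ => ?_
    simp [deg, mon]
  · intro d hd
    split_ifs with h1
    · exfalso
      obtain ⟨i, hi⟩ : ∃ i, d i ≠ 0 := by
        by_contra hcon
        push Not at hcon
        rw [show d = 0 from Finsupp.ext hcon] at h1
        simp [deg] at h1
      refine hd (Finset.mem_image.2 ⟨i, Finset.mem_univ i, ?_⟩)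
      have hsum : ∑ l, d l = 1 := by rwa [deg, Finsupp.sum_fintype _ _ fun _ => rfl] at h1
      ext l
      have h2 : d i + ∑ x ∈ Finset.univ.erase i, d x = 1 := by
        rw [Finset.add_sum_erase _ _ (Finset.mem_univ i)]; exact hsum
      by_cases hl : i = l
      · subst hl; rw [Finsupp.single_eq_same]; omega
      · have h3 := Finset.single_le_sum (f := fun x => d x) (fun x _ => Nat.zero_le _)
          (Finset.mem_erase.2 ⟨Ne.symm hl, Finset.mem_univ l⟩)
        rw [Finsupp.single_eq_of_ne (Ne.symm hl)]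
        omega
    · simp

/-- Constant and linear parts determine a value up to a quadratic error. -/
lemma norm_ev_sub_lin_le {y : σ → C} {R : ℝ} (hR0 : 0 ≤ R) (hR1 : R < 1) (hy : ∀ i, ‖y i‖ ≤ R)
    {f : MvPowerSeries σ C} (hf : IntSer f) :
    ‖ev y f - constantCoeff f - ∑ i, coeff (Finsupp.single i 1) f * y i‖ ≤ R ^ 2 := by
  classical
  have hys : Small y := fun i => (hy i).trans_lt hR1
  have hs := summable' hE hys hf
  let u : (σ →₀ ℕ) → C := fun d => (if d = 0 then coeff d f else 0) * mon y d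
  let v : (σ →₀ ℕ) → C := fun d => (if deg d = 1 then coeff d f else 0) * mon y d
  have hu : HasSum u (constantCoeff f) := by
    have := hasSum_single (f := u) 0 fun d hd => by simp [u, hd]
    simpa [u, mon] using this
  have hv : Summable v := by
    have hl : IntSer (show MvPowerSeries σ C from fun d => if deg d = 1 then coeff d f else 0) :=
      fun d => by
        show ‖if deg d = 1 then coeff d f else 0‖ ≤ 1
        split_ifs <;> simp [hf d]
    exact summable' hE hys hl
  rw [← sum_single_eq_tsum y f, ← hu.tsum_eq, ev, ← hs.tsum_sub hu.summable,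
    ← (hs.sub hu.summable).tsum_sub hv]
  refine IsUltrametricDist.norm_tsum_le_of_forall_le_of_nonneg (sq_nonneg R) fun d => ?_
  rcases Nat.lt_or_ge (deg d) 2 with hd | hd
  · rcases Nat.eq_zero_or_pos (deg d) with h0 | h1
    · have : d = 0 := by
        ext i
        by_contra hi
        exact hi (Finset.sum_eq_zero_iff.1 h0 i (Finsupp.mem_support_iff.2 hi))
      subst this
      simp [u, v, deg, sq_nonneg]
    · have h1' : deg d = 1 := by omega
      have hne : d ≠ 0 := fun h => by simp [h, deg] at h1'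
      simp [u, v, h1', hne, sq_nonneg]
  · have h1 : deg d ≠ 1 := by omega
    have hne : d ≠ 0 := fun h => by simp [h, deg] at hd
    simp only [u, v, h1, hne, if_false, zero_mul, sub_zero, norm_mul]
    refine (mul_le_of_le_one_left (norm_nonneg _) (hf d)).trans ?_
    rw [mon, Finsupp.prod, norm_prod]
    calc ∏ i ∈ d.support, ‖y i ^ d i‖ ≤ ∏ i ∈ d.support, R ^ d i :=
          Finset.prod_le_prod (fun i _ => norm_nonneg _) fun i _ => by
            rw [norm_pow]; exact pow_le_pow_left₀ (norm_nonneg _) (hy i) _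
      _ = R ^ deg d := Finset.prod_pow_eq_pow_sum _ _ _
      _ ≤ R ^ 2 := pow_le_pow_of_le_one hR0 hR1.le hd

/-- First order expansion around a point. -/
lemma norm_ev_add_sub_le {x y : σ → C} (hx : Small x) {R : ℝ} (hR0 : 0 ≤ R) (hR1 : R < 1)
    (hy : ∀ i, ‖y i‖ ≤ R) {f : MvPowerSeries σ C} (hf : IntSer f) :
    ‖ev (fun i => x i + y i) f - ev x f - ∑ i, ev x (pderiv C i f) * y i‖ ≤ R ^ 2 := by
  have h := norm_ev_sub_lin_le hE hR0 hR1 hy (intSer_shift hE hx hf)
  simpa only [coeff_single_shift hE hx hf, constantCoeff_shift hE hx hf,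
    ev_shift hE hx (fun i => (hy i).trans_lt hR1) hf] using h

lemma ev_pderiv_subst {g : σ → MvPowerSeries τ C} (hg : ∀ i, IntSer (g i) ∧ constantCoeff (g i) = 0)
    {f : MvPowerSeries σ C} (hf : IntSer f) {x : τ → C} (hx : Small x) (t : τ) :
    ev x (pderiv C t (f.subst g)) =
      ∑ i, ev (fun l => ev x (g l)) (pderiv C i f) * ev x (pderiv C t (g i)) := by
  classical
  rw [NoIdeal.pderiv_subst fun i => (hg i).2]
  have key : ∀ s : Finset σ, IntSer (∑ i ∈ s, (pderiv C i f).subst g * pderiv C t (g i)) ∧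
      ev x (∑ i ∈ s, (pderiv C i f).subst g * pderiv C t (g i)) =
        ∑ i ∈ s, ev (fun l => ev x (g l)) (pderiv C i f) * ev x (pderiv C t (g i)) := by
    intro s
    induction s using Finset.induction with
    | empty => simp [IntSer, ev]
    | insert i s hi ih =>
      have h1 : IntSer ((pderiv C i f).subst g * pderiv C t (g i)) :=
        intSer_mul' hE (intSer_subst hE hg (intSer_pderiv' hf i)) (intSer_pderiv' (hg i).1 t)
      rw [Finset.sum_insert hi, Finset.sum_insert hi]
      refine ⟨intSer_add' hE h1 ih.1, ?_⟩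
      rw [ev_add' hE hx h1 ih.1, ih.2, ev_mul' hE hx
        (intSer_subst hE hg (intSer_pderiv' hf i)) (intSer_pderiv' (hg i).1 t),
        ev_subst hE hg (intSer_pderiv' hf i) hx]
  exact (key Finset.univ).2

omit [Fintype σ] [Fintype τ] hE in
omit [IsUltrametricDist C] [CompleteSpace C] in
/-- A quantity bounded by a square for all small scalars vanishes. -/
lemma eq_zero_of_le_sq {C : Type} [NontriviallyNormedField C] {a : C} {K : ℝ}
    (h : ∀ s : C, ‖s‖ < 1 → ‖s * a‖ ≤ K * ‖s‖ ^ 2) : a = 0 := by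
  by_contra ha
  have hapos : 0 < ‖a‖ := norm_pos_iff.2 ha
  obtain ⟨s, hs0, hs⟩ := NormedField.exists_norm_lt C
    (show 0 < min 1 (‖a‖ / (|K| + 1)) from lt_min one_pos (by positivity))
  have h1 := h s (hs.trans_le (min_le_left _ _))
  have h2 : ‖s‖ < ‖a‖ / (|K| + 1) := hs.trans_le (min_le_right _ _)
  rw [lt_div_iff₀ (by positivity)] at h2
  rw [norm_mul] at h1
  nlinarith [le_abs_self K, mul_pos hs0 hs0]

/-- Frobenius powers of values. -/
lemma ev_pow_char {p : ℕ} [Fact p.Prime] [CharP C p] {x : σ → C} (hx : Small x)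
    {f : MvPowerSeries σ C} (hf : IntSer f) (r : ℕ) :
    ev x f ^ p ^ r =
      ev (fun i => x i ^ p ^ r) (MvPowerSeries.map (iterateFrobenius C p r) f) := by
  have hc : Continuous (iterateFrobenius C p r) :=
    (continuous_pow (M := C) (p ^ r)).congr fun a => (iterateFrobenius_def p r a).symm
  have h := (summable' hE hx hf).map_tsum (iterateFrobenius C p r) hc
  rw [ev, ← iterateFrobenius_def, h, ev]
  refine tsum_congr fun d => ?_
  rw [map_mul, coeff_map, mon, mon, map_finsuppProd]
  congr 1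
  refine Finsupp.prod_congr fun i _ => ?_
  rw [iterateFrobenius_def, ← pow_mul, ← pow_mul, mul_comm]

end Vale.Agent.P217.Orbit

end
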