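import Vale.Agent.P217.Orbit.Chain
import Vale.Agent.P217.Orbit.Implicit

/-!
# P217 Orbit: the series of a function along deformed torsion chains

Unknowns are the parameters and the points `z ^ (q ^ m)` of the chains; the last rows are the
coordinates of `χ`.
-/

noncomputable section

namespace Vale.Agent.P217.Orbit

open MvPowerSeries

variable {p : ℕ} [Fact p.Prime] {n h : ℕ} {C : Type} [NontriviallyNormedField C]
  [IsUltrametricDist C] [CompleteSpace C] [CharP C p] [PerfectRing C p]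

/-- A chain of `[p]` at the parameters `v`. -/
structure IsChain (v : Fin (n - h) → C) (z : Fin (n - h) → ℕ → C) : Prop where
  small : ∀ i m, ‖z i m‖ < 1
  zero : ∀ i, z i 0 = 0
  step : ∀ i m, pmul (lawAt p n h v) p (z i (m + 1)) = z i m

/-- The series of `fd` along chains. -/
theorem exists_series (hE : EvalTarget) (hF : FormalFixTarget) (hLaw : LawTarget)
    (hLow : LowDegreeTarget) (h1 : 1 ≤ h) (hn : h < n) {ud : Fin (n - h) → C} (hud : Small ud)
    (hu0 : ud ⟨0, by omega⟩ ≠ 0) {z : Fin (n - h) → ℕ → C} (hz : IsChain (p := p) ud z)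
    (hind : ∀ N : Fin (n - h) → ℕ,
      psum (lawAt p n h ud) (fun i => pmul (lawAt p n h ud) (N i) (z i 1)) = 0 → ∀ i, p ∣ N i)
    {χ : PowerSeries C} (hχ : IntSer χ) (hχ0 : PowerSeries.constantCoeff χ = 0)
    (hχd : ∀ y : C, ‖y‖ < 1 → ev (fun _ : Unit => y) (pderiv C () (χ : MvPowerSeries Unit C)) ≠ 0)
    {fd : MvPowerSeries (Fin (n - h)) C} (hfd : IntSer fd) {M : ℕ} (hM : 1 ≤ M) :
    ∃ (G : MvPowerSeries (Fin (n - h)) C) (t : C), t ≠ 0 ∧ ‖t‖ < 1 ∧
      Growth G 1 ((‖t‖ ^ 2)⁻¹) ∧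
      ((∀ i, coeff (Finsupp.single i 1) G = 0) → ∀ l, ev ud (pderiv C l fd) = 0) ∧
      ∀ (v' : Fin (n - h) → C) (z' : Fin (n - h) → ℕ → C) (w : Fin (n - h) → C) (ω r : ℝ),
        Small v' → IsChain (p := p) v' z' → ev v' fd = 0 →
        (∀ l, ‖v' l - ud l‖ ≤ r) → r < ‖t‖ → r ^ p ^ (h * M) < ‖t‖ ^ 2 →
        r ^ (p ^ (h * M) - 1) < ‖t‖ →
        (∀ i m, m ≤ M → ‖z' i m - z i m‖ < ‖t‖) → (∀ i, ‖w i‖ ≤ ω) → ω < ‖t‖ ^ 2 →
        (∀ δ : ℝ, 0 ≤ δ → (∀ l, ‖v' l - ud l‖ ≤ δ) → ∀ i,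
          ‖ev1 (ev1 (z' i M ^ p ^ (h * M)) (gComp (p := p) ud M)) χ - w i‖ ≤
            δ ^ p ^ (h * M)) →
        ‖ev w G‖ ≤ (‖t‖ ^ 2)⁻¹ * (‖t‖⁻¹ * ω) ^ p ^ (h * M) := by
  classical
  have hp : p.Prime := Fact.out
  have hppow : ∀ r, p ^ r ≠ 0 := fun r => pow_ne_zero _ hp.ne_zero
  have hlast : M - 1 < M := by omega
  let lastI : Fin M := ⟨M - 1, hlast⟩
  let x0 : Fin (n - h) ⊕ (Fin (n - h) × Fin M) → C :=
    Sum.elim ud fun e => z e.1 (e.2 + 1) ^ p ^ (h * ((e.2 : ℕ) + 1))
  have hx0 : Small x0 := fun s => by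
    rcases s with l | ⟨i, m⟩
    · exact hud l
    · show ‖z i _ ^ _‖ < 1
      rw [norm_pow]
      exact pow_lt_one₀ (norm_nonneg _) (hz.small _ _) (hppow _)
  let ps : PowerSeries C := χ.subst (gComp (p := p) ud M)
  obtain ⟨hGI, hG0⟩ := gComp_props (p := p) hE hud M
  have hpsI : IntSer (ps : MvPowerSeries Unit C) := intSer_psSubst hE hχ hGI hG0
  have hps0 : PowerSeries.constantCoeff ps = 0 := ps_constantCoeff hχ0 hG0
  -- arguments of the equations
  let argE : Fin (n - h) → Fin M → (Fin (n - h) ⊕ Unit) →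
      MvPowerSeries (Fin (n - h) ⊕ (Fin (n - h) × Fin M)) C := fun i m =>
    Sum.elim (fun l => MvPowerSeries.X (Sum.inl l) ^ p ^ (h * (m : ℕ)))
      fun _ => MvPowerSeries.X (Sum.inr (i, m))
  let prevS : Fin (n - h) → Fin M → MvPowerSeries (Fin (n - h) ⊕ (Fin (n - h) × Fin M)) C :=
    fun i m => if hm : (m : ℕ) = 0 then 0 else
      MvPowerSeries.X (Sum.inr (i, ⟨(m : ℕ) - 1, by omega⟩))
  let P : Fin (n - h) ⊕ (Fin (n - h) × Fin M) →
      MvPowerSeries (Fin (n - h) ⊕ (Fin (n - h) × Fin M)) C :=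
    Sum.elim (fun i => ps.subst (MvPowerSeries.X (Sum.inr (i, lastI)) :
      MvPowerSeries (Fin (n - h) ⊕ (Fin (n - h) × Fin M)) C))
      fun e => (gB p n h C).subst (argE e.1 e.2) - prevS e.1 e.2
  have hXpow : ∀ (s : Fin (n - h) ⊕ (Fin (n - h) × Fin M)) (k : ℕ) (y : _ → C), Small y →
      IntSer ((MvPowerSeries.X s : MvPowerSeries _ C) ^ k) ∧
        ev y ((MvPowerSeries.X s : MvPowerSeries _ C) ^ k) = y s ^ k := by
    intro s k y hy
    induction k with
    | zero =>
      rw [pow_zero, pow_zero, ← map_one (MvPowerSeries.C : C →+* MvPowerSeries _ C)]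
      refine ⟨fun d => ?_, ((hE C).2.1 _ y 1 s hy).1⟩
      rw [coeff_C]; split_ifs <;> simp
    | succ k ih =>
      rw [pow_succ, pow_succ]
      exact ⟨intSer_mul' hE ih.1 (intSer_X _), by
        rw [ev_mul' hE hy ih.1 (intSer_X _), ih.2, ev_X' hE hy]⟩
  have harg : ∀ i m s, IntSer (argE i m s) ∧ constantCoeff (argE i m s) = 0 := fun i m s => by
    rcases s with l | u
    · exact ⟨(hXpow _ _ x0 hx0).1, by simp [argE, hp.ne_zero]⟩
    · exact ⟨intSer_X _, constantCoeff_X _⟩
  have hprevI : ∀ i m, IntSer (prevS i m) := fun i m => by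
    simp only [prevS]
    split_ifs
    · exact fun d => by simp
    · exact intSer_X _
  have hXs : ∀ i : Fin (n - h), IntSer (MvPowerSeries.X (Sum.inr (i, lastI)) :
      MvPowerSeries (Fin (n - h) ⊕ (Fin (n - h) × Fin M)) C) ∧
      constantCoeff (MvPowerSeries.X (Sum.inr (i, lastI)) :
      MvPowerSeries (Fin (n - h) ⊕ (Fin (n - h) × Fin M)) C) = 0 :=
    fun i => ⟨intSer_X _, constantCoeff_X _⟩
  have hPI : ∀ e, IntSer (P e) := fun e => by
    rcases e with i | ⟨i, m⟩
    · exact intSer_psSubst hE hpsI (hXs i).1 (hXs i).2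
    · exact intSer_sub' (intSer_subst hE (harg i m) (intSer_gB p n h)) (hprevI i m)
  -- values
  have hPl : ∀ y, Small y → ∀ i, ev y (P (Sum.inl i)) =
      ev1 (ev1 (y (Sum.inr (i, lastI))) (gComp (p := p) ud M)) χ := fun y hy i => by
    refine (ev_psSubst hE hpsI (hXs i).1 (hXs i).2 hy).trans ?_
    rw [ev_X' hE hy]
    exact ev_psSubst hE hχ hGI hG0 fun _ => hy _
  have hargv : ∀ y, Small y → ∀ i m, (fun s => ev y (argE i m s)) =
      Sum.elim (fun l => y (Sum.inl l) ^ p ^ (h * (m : ℕ))) fun _ => y (Sum.inr (i, m)) :=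
    fun y hy i m => funext fun s => by
      rcases s with l | u
      · exact (hXpow _ _ y hy).2
      · exact ev_X' hE hy _
  have hPr : ∀ y, Small y → ∀ i m, ev y (P (Sum.inr (i, m))) =
      ev (Sum.elim (fun l => y (Sum.inl l) ^ p ^ (h * (m : ℕ))) fun _ => y (Sum.inr (i, m)))
        (gB p n h C) - if hm : (m : ℕ) = 0 then 0 else y (Sum.inr (i, ⟨(m : ℕ) - 1, by omega⟩)) :=
    fun y hy i m => by
      show ev y ((gB p n h C).subst (argE i m) - prevS i m) = _
      rw [ev_sub' hE hy (intSer_subst hE (harg i m) (intSer_gB p n h)) (hprevI i m),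
        ev_subst hE (harg i m) (intSer_gB p n h) hy, hargv y hy i m]
      congr 1
      simp only [prevS]
      split_ifs
      · simp [ev]
      · exact ev_X' hE hy _
  -- chains give roots
  have hchain : ∀ (v : Fin (n - h) → C) (zz : Fin (n - h) → ℕ → C), Small v →
      IsChain (p := p) v zz → ∀ i (m : Fin M),
      ev (Sum.elim v fun e => zz e.1 ((e.2 : Fin M) + 1) ^ p ^ (h * ((e.2 : ℕ) + 1)))
        (P (Sum.inr (i, m))) = 0 := by
    intro v zz hv hzz i m
    have hy : Small (Sum.elim v fun e : Fin (n - h) × Fin M =>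
        zz e.1 (e.2 + 1) ^ p ^ (h * ((e.2 : ℕ) + 1))) := fun s => by
      rcases s with l | ⟨a, b⟩
      · exact hv l
      · rw [Sum.elim_inr, norm_pow]
        exact pow_lt_one₀ (norm_nonneg _) (hzz.small _ _) (hppow _)
    rw [hPr _ hy]
    simp only [Sum.elim_inl, Sum.elim_inr]
    rw [show h * ((m : ℕ) + 1) = h + h * (m : ℕ) by ring,
      ← pmul_pow hE hLow hn hv (hzz.small i ((m : ℕ) + 1)), hzz.step i m]
    split_ifs with hm
    · rw [hm, hzz.zero, zero_pow (hppow _), sub_zero]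
    · rw [Nat.sub_add_cancel (Nat.one_le_iff_ne_zero.2 hm), sub_self]
  have hPl0 : ∀ i, ev x0 (P (Sum.inl i)) = 0 := fun i => by
    rw [hPl x0 hx0]
    have hval : ev1 (x0 (Sum.inr (i, lastI))) (gComp (p := p) ud M) = 0 := by
      show ev1 (z i (M - 1 + 1) ^ p ^ (h * (M - 1 + 1))) _ = 0
      rw [Nat.sub_add_cancel hM, gComp_value hE hud hLow hn M _ (hz.small i M)]
      have : ∀ k m, (pmul (lawAt p n h ud) p)^[k] (z i (m + k)) = z i m := fun k => by
        induction k with
        | zero => intro m; rfl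
        | succ k ih =>
          intro m
          rw [Function.iterate_succ_apply, ← Nat.add_assoc, hz.step, ih]
      have h3 := this M 0
      rw [zero_add] at h3
      rw [h3, hz.zero]
    rw [hval]
    exact ev1_zero_of_const hE hχ hχ0
  have hP0 : ∀ e, ev x0 (P e) = 0 := fun e => by
    rcases e with i | ⟨i, m⟩
    · exact hPl0 i
    · exact hchain ud z hud hz i m
  -- the linear part
  let Ψ := fun e => shift x0 (P e)
  have hΨ : ∀ e, IntSer (Ψ e) ∧ constantCoeff (Ψ e) = 0 := fun e =>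
    ⟨intSer_shift hE hx0 (hPI e), by rw [constantCoeff_shift hE hx0 (hPI e), hP0]⟩
  let J : Matrix (Fin (n - h) ⊕ (Fin (n - h) × Fin M))
      (Fin (n - h) ⊕ (Fin (n - h) × Fin M)) C :=
    Matrix.of fun e v => ev x0 (pderiv C v (P e))
  have hLdir : ∀ x e, J.mulVecLin x e = dir x0 x (P e) := fun x e => rfl
  have hdl : ∀ (x : _ → C) (i), dir x0 x (P (Sum.inl i)) =
      ev (fun _ : Unit => x0 (Sum.inr (i, lastI))) (pderiv C () (ps : MvPowerSeries Unit C)) *
        x (Sum.inr (i, lastI)) := fun x i => by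
    show dir x0 x (MvPowerSeries.subst _ _) = _
    rw [dir_subst hE hx0 x (fun _ => hXs i) hpsI, Fintype.sum_unique, dir_X hE hx0,
      funext fun _ : Unit => ev_X' hE hx0 (Sum.inr (i, lastI))]
  let K : Fin (n - h) → Fin M → Fin (n - h) ⊕ Unit → C := fun i m s =>
    ev (Sum.elim (fun l => x0 (Sum.inl l) ^ p ^ (h * (m : ℕ))) fun _ => x0 (Sum.inr (i, m)))
      (pderiv C s (gB p n h C))
  have hdr : ∀ (x : _ → C) i (m : Fin M), dir x0 x (P (Sum.inr (i, m))) =
      (if (m : ℕ) = 0 then ∑ l, K i m (Sum.inl l) * x (Sum.inl l) else 0) +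
        K i m (Sum.inr ()) * x (Sum.inr (i, m)) -
        if hm : (m : ℕ) = 0 then 0 else x (Sum.inr (i, ⟨(m : ℕ) - 1, by omega⟩)) := by
    intro x i m
    show dir x0 x ((gB p n h C).subst (argE i m) - prevS i m) = _
    rw [dir_sub hE hx0 x (intSer_subst hE (harg i m) (intSer_gB p n h)) (hprevI i m),
      dir_subst hE hx0 x (harg i m) (intSer_gB p n h), hargv x0 hx0 i m, Fintype.sum_sum_type]
    congr 1
    · congr 1
      · split_ifs with hm
        · refine Finset.sum_congr rfl fun l _ => ?_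
          simp only [argE, Sum.elim_inl, hm, mul_zero, pow_zero, pow_one, dir_X hE hx0, K]
        · refine Finset.sum_eq_zero fun l _ => ?_
          simp only [argE, Sum.elim_inl]
          rw [dir_pow_char x p (Sum.inl l) (Nat.mul_ne_zero (by omega) hm), mul_zero]
      · rw [Fintype.sum_unique]
        simp only [argE, Sum.elim_inr, dir_X hE hx0, K]
    · simp only [prevS]
      split_ifs
      · exact dir_zero x
      · exact dir_X hE hx0 x _
  have hK : ∀ i (m : Fin M), K i m (Sum.inr ()) ≠ 0 := fun i m => by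
    have hne0 : (fun l => ud l ^ p ^ (h * (m : ℕ))) ⟨0, by omega⟩ ≠ 0 := pow_ne_zero _ hu0
    exact deriv_point_ne hE hLaw hLow hn (small_pow hud _) h1 hne0 (hx0 (Sum.inr (i, m)))
  have hc : ∀ i, ev (fun _ : Unit => x0 (Sum.inr (i, lastI)))
      (pderiv C () (ps : MvPowerSeries Unit C)) ≠ 0 := fun i => by
    show ev _ (pderiv C () (MvPowerSeries.subst _ _)) ≠ 0
    rw [ev_pderiv_subst hE (fun _ => ⟨hGI, hG0⟩) hχ (fun _ => hx0 _), Fintype.sum_unique]
    refine mul_ne_zero (hχd _ ?_) (gComp_deriv_ne hE hud hLaw hLow h1 hn hu0 M _ (hx0 _))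
    exact (ev1_small hE hGI hG0 (hx0 _)).trans_lt (hx0 _)
  have hrows : ∀ x, (∀ l, x (Sum.inl l) = 0) →
      (∀ i m, J.mulVecLin x (Sum.inr (i, m)) = 0) → x = 0 := by
    intro x hD hr
    funext s
    rcases s with l | ⟨i, ⟨m, hm⟩⟩
    · exact hD l
    induction m with
    | zero =>
      have := hr i ⟨0, hm⟩
      rw [hLdir, hdr] at this
      simpa [hD, hK] using this
    | succ m ih =>
      have h2 := hr i ⟨m + 1, hm⟩
      rw [hLdir, hdr] at h2
      simp only [Nat.succ_ne_zero, if_false, dif_neg, not_false_eq_true, zero_add,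
        Nat.add_sub_cancel] at h2
      rw [ih (by omega)] at h2
      simpa [hK] using h2
  have hinj : Function.Injective J.mulVecLin := by
    refine (injective_iff_map_eq_zero J.mulVecLin).2 fun x hx => ?_
    have hrow : ∀ e, dir x0 x (P e) = 0 := fun e => by rw [← hLdir, hx]; rfl
    have hY : ∀ i k, ∀ hk : k < M, x (Sum.inr (i, ⟨M - 1 - k, by omega⟩)) = 0 := by
      intro i k
      induction k with
      | zero =>
        intro hk
        have h2 := hrow (Sum.inl i)
        rw [hdl] at h2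
        simpa [lastI] using (mul_eq_zero.1 h2).resolve_left (hc i)
      | succ k ih =>
        intro hk
        have h2 := hrow (Sum.inr (i, ⟨M - 1 - k, by omega⟩))
        rw [hdr, if_neg (by simp only; omega), dif_neg (by simp only; omega), ih (by omega),
          mul_zero, add_zero, zero_sub, neg_eq_zero] at h2
        convert h2 using 4
        ext
        simp only
        omega
    have hD : ∀ l, x (Sum.inl l) = 0 := by
      have hd : (fun l => x (Sum.inl l)) = 0 := by
        refine deriv_param_indep hE hLaw hLow hn hud h1 (fun i => z i 1)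
          (fun i => hz.small i 1) (fun i => by rw [hz.step, hz.zero]) hind _ fun i => ?_
        have h2 := hrow (Sum.inr (i, ⟨0, by omega⟩))
        have h0 := hY i (M - 1) (by omega)
        simp only [Nat.sub_self] at h0
        rw [hdr, if_pos rfl, dif_pos rfl, h0, mul_zero, add_zero, sub_zero] at h2
        simpa [delta, K, x0] using h2
      exact fun l => congrFun hd l
    exact hrows x hD fun i m => by rw [hx]; rfl
  let eL := LinearEquiv.ofInjectiveEndo J.mulVecLin hinj
  let B : Fin (n - h) ⊕ (Fin (n - h) × Fin M) → Fin (n - h) ⊕ (Fin (n - h) × Fin M) → C :=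
    fun v e => eL.symm (Pi.single e 1) v
  have hBsum : ∀ (y : _ → C) v, ∑ e, B v e * y e = eL.symm y v := fun y v => by
    conv_rhs => rw [pi_eq_sum_univ' y, map_sum]
    simp [Finset.sum_apply, B, mul_comm]
  have hB : ∀ v w, ∑ e, B v e * coeff (Finsupp.single w 1) (Ψ e) = if v = w then 1 else 0 := by
    intro v w
    simp only [Ψ, coeff_single_shift hE hx0 (hPI _)]
    rw [hBsum]
    have : eL.symm (fun e => ev x0 (pderiv C w (P e))) = Pi.single w 1 := by
      rw [LinearEquiv.symm_apply_eq]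
      funext e
      show _ = J.mulVecLin (Pi.single w 1) e
      rw [hLdir, dir, Finset.sum_eq_single w]
      · simp
      · intro v' _ hv'; simp [hv']
      · simp
    rw [this, Pi.single_apply]
  obtain ⟨t, X, ht0, ht1, hXI, hXlin, hXval⟩ :=
    exists_implicit hE hF Ψ hΨ B hB (Sum.inl : Fin (n - h) → _)
  have hts : ∀ l, IntSer (MvPowerSeries.C t * X (Sum.inl l)) ∧
      constantCoeff (MvPowerSeries.C t * X (Sum.inl l)) = 0 := fun l => by
    refine ⟨intSer_mul' hE (fun d => ?_) (hXI _).1, by simp [(hXI _).2]⟩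
    rw [coeff_C]; split_ifs <;> simp [ht1.le]
  have hsI := intSer_shift hE hud hfd
  let G1 : MvPowerSeries (Fin (n - h)) C :=
    (shift ud fd).subst fun l => MvPowerSeries.C t * X (Sum.inl l)
  have hG1 : IntSer G1 := intSer_subst hE hts hsI
  let G : MvPowerSeries (Fin (n - h)) C := fun d => (t ^ 2)⁻¹ ^ deg d * coeff d G1
  refine ⟨G, t, ht0, ht1, fun d => ?_, fun hlin l0 => ?_, ?_⟩
  · show ‖(t ^ 2)⁻¹ ^ deg d * coeff d G1‖ ≤ _
    rw [norm_mul, norm_pow, norm_inv, norm_pow, one_mul]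
    exact mul_le_of_le_one_right (by positivity) (hG1 d)
  · -- linear coefficients
    have hlin' : ∀ i, ∑ l, ev ud (pderiv C l fd) * B (Sum.inl l) (Sum.inl i) = 0 := fun i => by
      have h2 := hlin i
      change (t ^ 2)⁻¹ ^ deg (Finsupp.single i 1) * coeff (Finsupp.single i 1) G1 = 0 at h2
      rw [deg_single', pow_one, NoIdeal.coeff_single_subst (fun l => (hts l).2)] at h2
      simp only [coeff_single_shift hE hud hfd, MvPowerSeries.coeff_C_mul, hXlin] at h2
      rw [Finset.mul_sum] at h2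
      refine Eq.trans (Finset.sum_congr rfl fun l _ => ?_) h2
      field_simp
    let T : (Fin (n - h) → C) →ₗ[C] (Fin (n - h) → C) :=
      Matrix.mulVecLin (Matrix.of fun l i => B (Sum.inl l) (Sum.inl i))
    have hT : ∀ w l, T w l = eL.symm (Sum.elim w 0) (Sum.inl l) := fun w l => by
      rw [← hBsum, Fintype.sum_sum_type]
      simp [T, Matrix.mulVec, dotProduct]
    have hTinj : Function.Injective T := by
      refine (injective_iff_map_eq_zero T).2 fun w hw => ?_
      have h3 : eL.symm (Sum.elim w 0) = 0 := hrows _ (fun l => by rw [← hT, hw]; rfl) fun i m => by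
        show eL (eL.symm (Sum.elim w 0)) _ = 0
        rw [LinearEquiv.apply_symm_apply]; rfl
      funext l
      have h4 := congrArg eL h3
      rw [LinearEquiv.apply_symm_apply, map_zero] at h4
      exact congrFun h4 (Sum.inl l)
    obtain ⟨w, hw⟩ := (LinearMap.injective_iff_surjective.1 hTinj) (Pi.single l0 1)
    have h5 : ∑ l, ev ud (pderiv C l fd) * T w l = 0 := by
      simp only [T, Matrix.mulVecLin_apply, Matrix.mulVec, dotProduct, Matrix.of_apply,
        Finset.mul_sum]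
      rw [Finset.sum_comm]
      refine Finset.sum_eq_zero fun i _ => ?_
      rw [← zero_mul (w i), ← hlin' i, Finset.sum_mul]
      exact Finset.sum_congr rfl fun l _ => by ring
    rw [hw, Finset.sum_eq_single l0 (fun l _ hl => by simp [hl]) (by simp)] at h5
    simpa using h5
  -- the estimate
  intro v' z' w ω r hv' hz' hfv hr hrt hrQ hrQ1 hzz hw hω hδ
  set Q := p ^ (h * M) with hQ
  set δ := Finset.univ.fold max (0 : ℝ) fun l => ‖v' l - ud l‖ with hδdef
  have hδ' : 0 ≤ δ ∧ ∀ l ∈ Finset.univ, ‖v' l - ud l‖ ≤ δ := Finset.fold_max_le δ |>.1 hδdef.ge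
  have hr0 : 0 ≤ r := (norm_nonneg _).trans (hr ⟨0, by omega⟩)
  have hδr : δ ≤ r := Finset.fold_max_le r |>.2 ⟨hr0, fun l _ => hr l⟩
  have hω0 : 0 ≤ ω := (norm_nonneg _).trans (hw ⟨0, by omega⟩)
  let y : Fin (n - h) ⊕ (Fin (n - h) × Fin M) → C :=
    Sum.elim v' fun e => z' e.1 (e.2 + 1) ^ p ^ (h * ((e.2 : ℕ) + 1))
  have hy : Small y := fun s => by
    rcases s with l | ⟨a, b⟩
    · exact hv' l
    · show ‖z' a _ ^ _‖ < 1
      rw [norm_pow]
      exact pow_lt_one₀ (norm_nonneg _) (hz'.small _ _) (hppow _)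
  set x := fun s => y s - x0 s with hxdef
  have hxt : ∀ s, ‖x s‖ < ‖t‖ := fun s => by
    rcases s with l | ⟨a, b⟩
    · exact (hr l).trans_lt hrt
    · show ‖z' a _ ^ _ - z a _ ^ _‖ < _
      rw [← sub_pow_char_pow, norm_pow]
      have hzb := hzz a (b + 1) (by omega)
      exact (pow_le_of_le_one (norm_nonneg _) (hzb.le.trans ht1.le) (hppow _)).trans_lt hzb
  set w' := fun i => ev1 (ev1 (z' i M ^ Q) (gComp (p := p) ud M)) χ with hw'def
  have hw'ω : ∀ i, ‖w' i‖ ≤ max ω (δ ^ Q) := fun i => by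
    have h2 := IsUltrametricDist.norm_add_le_max (w' i - w i) (w i)
    rw [sub_add_cancel] at h2
    exact h2.trans (max_le (le_max_of_le_right (hδ δ hδ'.1 (fun l => hδ'.2 l (Finset.mem_univ l)) i))
      (le_max_of_le_left (hw i)))
  have hxs : Small x := fun s => (hxt s).trans ht1
  have hxw : ∀ e, ev x (Ψ e) = ∑ i, if e = Sum.inl i then w' i else 0 := fun e => by
    have e1 : ev x (Ψ e) = ev y (P e) := by
      simp only [Ψ]
      rw [ev_shift hE hx0 hxs (hPI e)]
      congr 1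
      funext s
      simp [hxdef]
    rw [e1]
    rcases e with i | ⟨i, m⟩
    · rw [hPl y hy, Finset.sum_eq_single i (fun l _ hl => by simp [Ne.symm hl]) (by simp), if_pos rfl]
      show ev1 (ev1 (z' i (M - 1 + 1) ^ p ^ (h * (M - 1 + 1))) _) χ = _
      rw [Nat.sub_add_cancel hM]
    · rw [hchain v' z' hv' hz' i m, Finset.sum_eq_zero fun l _ => if_neg (by simp)]
  have ht2 : 0 < ‖t‖ ^ 2 := pow_pos (norm_pos_iff.2 ht0) 2
  have hmax : max ω (δ ^ Q) < ‖t‖ ^ 2 :=
    max_lt hω ((pow_le_pow_left₀ hδ'.1 hδr _).trans_lt hrQ)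
  have hxv := hXval x w' hxt (fun i => (hw'ω i).trans_lt hmax) hxw
  set W' := fun i => w' i / t ^ 2 with hW'
  have hW's : ∀ i, ‖W' i‖ ≤ max ω (δ ^ Q) / ‖t‖ ^ 2 := fun i => by
    rw [hW', norm_div, norm_pow]
    exact div_le_div_of_nonneg_right (hw'ω i) ht2.le
  have hW'1 : max ω (δ ^ Q) / ‖t‖ ^ 2 < 1 := (div_lt_one ht2).2 hmax
  have hW'S : Small W' := fun i => (hW's i).trans_lt hW'1
  -- bootstrap
  have hboot : δ ≤ ‖t‖⁻¹ * max ω (δ ^ Q) := by
    refine Finset.fold_max_le _ |>.2 ⟨by positivity, fun l _ => ?_⟩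
    have h2 : x (Sum.inl l) = v' l - ud l := rfl
    rw [← h2, hxv, norm_mul]
    refine (mul_le_mul_of_nonneg_left (norm_ev_le' hE hW'S (hXI _).1 (hXI _).2
      (div_nonneg (le_max_of_le_left hω0) ht2.le) hW's) (norm_nonneg t)).trans (le_of_eq ?_)
    have := norm_ne_zero_iff.2 ht0
    field_simp
  have hδω : δ ≤ ‖t‖⁻¹ * ω := by
    rcases le_total (δ ^ Q) ω with h2 | h2
    · rwa [max_eq_left h2] at hboot
    · rw [max_eq_right h2] at hboot
      rcases hδ'.1.eq_or_lt with h0 | hpos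
      · rw [← h0]; positivity
      exfalso
      have hQ1 : δ ^ Q = δ * δ ^ (Q - 1) := by
        rw [← pow_succ', Nat.sub_add_cancel (Nat.one_le_iff_ne_zero.2 (hppow _))]
      have h3 : δ ^ (Q - 1) < ‖t‖ := (pow_le_pow_left₀ hδ'.1 hδr _).trans_lt hrQ1
      have h4 : ‖t‖⁻¹ * δ ^ Q < δ := by
        rw [inv_mul_lt_iff₀ (norm_pos_iff.2 ht0), hQ1, mul_comm ‖t‖]
        exact mul_lt_mul_of_pos_left h3 hpos
      exact absurd (hboot.trans_lt h4) (lt_irrefl _)
  set W := fun i => w i / t ^ 2 with hW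
  have hWs : Small W := fun i => by
    rw [hW, norm_div, norm_pow, div_lt_one ht2]; exact (hw i).trans_lt hω
  have hevG : ev w G = ev W G1 := by
    refine tsum_congr fun d => ?_
    show (t ^ 2)⁻¹ ^ deg d * coeff d G1 * mon w d = coeff d G1 * mon W d
    have : W = fun i => (t ^ 2)⁻¹ * w i := funext fun i => by simp only [hW, div_eq_inv_mul]
    rw [this, mon_smul]
    ring
  have hG1' : ev W' G1 = 0 := by
    show ev W' (MvPowerSeries.subst _ _) = 0
    rw [ev_subst hE hts hsI hW'S]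
    have e2 : (fun l => ev W' (MvPowerSeries.C t * X (Sum.inl l))) = fun l => v' l - ud l := by
      funext l
      rw [ev_mul' hE hW'S (fun d => by rw [coeff_C]; split_ifs <;> simp [ht1.le]) (hXI _).1,
        ((hE C).2.1 _ W' t l hW'S).1, ← hxv]
      rfl
    rw [e2, ev_shift hE hud (fun l => ((hr l).trans_lt (hrt.trans ht1))) hfd]
    simpa using hfv
  rw [hevG, ← sub_zero (ev W G1), ← hG1']
  refine norm_ev_sub_le' hE hWs hW'S hG1 (mul_nonneg (inv_nonneg.2 ht2.le)
    (pow_nonneg (mul_nonneg (inv_nonneg.2 (norm_nonneg t)) hω0) _)) fun i => ?_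
  rw [hW, hW', ← sub_div, norm_div, norm_pow, norm_sub_rev, div_eq_inv_mul]
  exact mul_le_mul_of_nonneg_left ((hδ δ hδ'.1 (fun l => hδ'.2 l (Finset.mem_univ l)) i).trans
    (pow_le_pow_left₀ hδ'.1 hδω _)) (inv_nonneg.2 ht2.le)

end Vale.Agent.P217.Orbit

end
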