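import Vale.Agent.P217.Orbit.Points

/-!
# P217 Orbit: the orbit series
-/

noncomputable section

namespace Vale.Agent.P217.Orbit

open MvPowerSeries Filter Topology

section Theta

variable {p : ℕ} [Fact p.Prime] {C : Type} [NontriviallyNormedField C] [IsUltrametricDist C]
  [CompleteSpace C] [CharP C p] [PerfectRing C p] {n h : ℕ}

/-- The facts on `theta` used here. -/
lemma theta_facts (hTh : ThetaTarget) (hn : 1 ≤ n) {c : ℝ} (hc0 : 0 ≤ c) (hc1 : c < 1)
    {u : Fin (n - 1) → C} (hu : ∀ i, ‖u i‖ ≤ c) :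
    (∀ η : C, ‖η‖ < 1 → ‖thetaC p n u η‖ < 1 ∧ ‖thetaC p n u η - η‖ ≤ c ∧
      thetaC p n u (η ^ p ^ n) = pmul (law p (vTuple n u)) p (thetaC p n u η) ∧
      ∀ η' : C, ‖η'‖ < 1 → thetaC p n u (padd (honda p n C) η η') =
        padd (law p (vTuple n u)) (thetaC p n u η) (thetaC p n u η')) ∧
    ∀ u' : Fin (n - 1) → C, (∀ i, ‖u' i‖ ≤ c) →
      (∀ r : ℝ, 0 ≤ r → (∀ i, ‖u i - u' i‖ ≤ r) → ∀ η : C, ‖η‖ < 1 →
        ‖thetaC p n u η - thetaC p n u' η‖ ≤ r) ∧
      ∀ (φ : PowerSeries C) (a : PowerSeries C), IntSer φ → IntSer a →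
        PowerSeries.constantCoeff a = 0 →
        (∀ m, PowerSeries.coeff m a ^ p ^ n = PowerSeries.coeff m a) →
        IsHom (law p (vTuple n u)) (law p (vTuple n u')) φ →
        (∀ m, ‖PowerSeries.coeff m φ - PowerSeries.coeff m a‖ ≤ c) →
        ∀ η : C, ‖η‖ < 1 → thetaC p n u' (ev1 η a) = ev1 (thetaC p n u η) φ := by
  obtain ⟨h1, -, h3⟩ := hTh p C C (MonoidWithZeroHom.id C) c hc1 (fun _ => rfl)
    (by simpa [CharP.cast_eq_zero C p] using hc0) (fun a b _ _ => by simpa using hc0) n hn u hu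
  refine ⟨fun η hη => ?_, fun u' hu' => ⟨(h3 u' hu').1, ?_⟩⟩
  · obtain ⟨-, a, b, c', d, -⟩ := h1 η hη
    exact ⟨a, b, c', d⟩
  · exact fun φ a h1 h2 h4 h5 h6 h7 => (h3 u' hu').2 φ a h1 h2 h4 h5 h6 fun m => h7 m

omit [IsUltrametricDist C] [CompleteSpace C] in
lemma theta_iter {u : Fin (n - 1) → C}
    (hpw : ∀ η : C, ‖η‖ < 1 →
      thetaC p n u (η ^ p ^ n) = pmul (law p (vTuple n u)) p (thetaC p n u η)) :
    ∀ (K : ℕ) (η : C), ‖η‖ < 1 →
      thetaC p n u (η ^ p ^ (n * K)) = (pmul (law p (vTuple n u)) p)^[K] (thetaC p n u η)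
  | 0, η, _ => by simp
  | K + 1, η, hη => by
    have h2 : ‖η ^ p ^ (n * K)‖ < 1 := by
      rw [norm_pow]
      exact pow_lt_one₀ (norm_nonneg _) hη (pow_ne_zero _ (Fact.out : p.Prime).ne_zero)
    rw [Function.iterate_succ_apply', ← theta_iter hpw K η hη, ← hpw _ h2, ← pow_mul, ← pow_add,
      Nat.mul_succ]

end Theta

section EvK

variable {p : ℕ} [Fact p.Prime] {n : ℕ} {k : Type} [Field k] [CharP k p]
  {C : Type} [NormedField C] [IsUltrametricDist C] [CompleteSpace C]

/-- Evaluation on the Lubin-Tate ring as a ring homomorphism. -/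
def evuHom (hE : EvalTarget) {ι : WittVector p k →+* C} (hι : ∀ a, ‖ι a‖ ≤ 1)
    {u : Fin (n - 1) → C} (hu : Small u) : LT p n k →+* C :=
  RingHom.mk'
    { toFun := evK ι u
      map_one' := by
        show ev u (MvPowerSeries.map ι 1) = 1
        rw [map_one, ev, tsum_eq_single 0]
        · simp [mon]
        · intro d hd
          classical
          rw [MvPowerSeries.coeff_one, if_neg hd, zero_mul]
      map_mul' := fun a b => by
        show ev u (MvPowerSeries.map ι _) = _
        rw [map_mul]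
        exact ev_mul' hE hu (fun d => by rw [coeff_map]; exact hι _)
          (fun d => by rw [coeff_map]; exact hι _) }
    fun a b => by
      show ev u (MvPowerSeries.map ι _) = _
      rw [map_add]
      exact ev_add' hE hu (fun d => by rw [coeff_map]; exact hι _)
        (fun d => by rw [coeff_map]; exact hι _)

end EvK

end Vale.Agent.P217.Orbit

namespace Vale.Agent.P217

open MvPowerSeries Filter Topology Orbit

/-- `OrbitTarget` from the other targets. -/
theorem orbitTarget (hA : ActionTarget) (hTh : ThetaTarget) (hE : EvalTarget)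
    (hF : FormalFixTarget) (hLaw : LawTarget) (hLow : LowDegreeTarget) : OrbitTarget := by
  intro p _ k _ _ _ C _ _ _ _ _ _ n h hk j u hpt ξ hξ χ hχ f hf
  classical
  have hp : p.Prime := Fact.out
  have h1 := hpt.one_le
  have hlt := hpt.lt
  have hn1 : 1 ≤ n := h1.trans hlt.le
  set ι := j.comp (WittVector.constantCoeff : WittVector p k →+* k) with hιdef
  have hι : ∀ a, ‖ι a‖ ≤ 1 := fun a => norm_embedding_le j _
  have hιp : ‖ι (p : WittVector p k)‖ < 1 := by
    rw [map_natCast, CharP.cast_eq_zero, norm_zero]; exact one_pos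
  have hu := hpt.small
  set evu := evuHom (p := p) (k := k) hE hι hu with hevu
  -- coordinates on the stratum
  let idx : Fin (n - h) → Fin (n - 1) := fun l => ⟨h - 1 + (l : ℕ), by omega⟩
  let ud : Fin (n - h) → C := fun l => u (idx l)
  have hud : Small ud := fun l => hu _
  have hext : ∀ x : Fin (n - 1) → C, (∀ i : Fin (n - 1), (i : ℕ) + 1 < h → x i = 0) →
      x = wExt n h fun l => x (idx l) := fun x hx => funext fun i => by
    unfold wExt
    split_ifs with hi
    · congr 1
      ext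
      simp only [idx]
      omega
    · exact hx i (by omega)
  have hu_eq : u = wExt n h ud := hext u hpt.low
  have hFu : law p (vTuple n u) = lawAt p n h ud := by rw [lawAt, ← hu_eq]
  have hu0 : ud ⟨0, by omega⟩ ≠ 0 := by
    have h2 := hpt.ne
    show u (idx ⟨0, by omega⟩) ≠ 0
    convert h2 using 3
    simp
  -- the bound
  set c₁ := Finset.univ.fold max (0 : ℝ) (fun i => ‖u i‖) with hc₁
  have hc₁' : (0 : ℝ) ≤ c₁ ∧ ∀ i ∈ Finset.univ, ‖u i‖ ≤ c₁ := Finset.fold_max_le c₁ |>.1 hc₁.ge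
  set c := Finset.univ.fold max c₁ (fun i => ‖ξ i‖) with hcdef
  have hc' : c₁ ≤ c ∧ ∀ i ∈ Finset.univ, ‖ξ i‖ ≤ c := Finset.fold_max_le c |>.1 hcdef.ge
  have huc : ∀ i, ‖u i‖ ≤ c := fun i => (hc₁'.2 i (Finset.mem_univ i)).trans hc'.1
  have hξc : ∀ i, ‖ξ i‖ ≤ c := fun i => hc'.2 i (Finset.mem_univ i)
  have hc1 : c < 1 := Finset.fold_max_lt 1 |>.2
    ⟨Finset.fold_max_lt 1 |>.2 ⟨one_pos, fun i _ => hu i⟩, fun i _ => hξ.small i⟩
  have hc0 : 0 < c := (norm_pos_iff.2 hpt.ne).trans_le (huc _)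
  obtain ⟨hθ, hθ'⟩ := theta_facts (p := p) hTh hn1 hc0.le hc1 huc
  have hθiter := theta_iter (p := p) (n := n) (u := u) fun η hη => (hθ η hη).2.2.1
  have hFuI : IntSer (law p (vTuple n u)).toPowerSeries := hFu ▸ intSer_lawAt p n h hud
  have hθ0 : ∀ η : C, ‖η‖ < 1 → ∀ K : ℕ, ‖thetaC p n u (η ^ p ^ (n * K))‖ ≤
      ‖thetaC p n u η‖ ^ p ^ (h * K) := fun η hη K => by
    have hs := (hθ η hη).1
    rw [hθiter K η hη, hFu, ← gComp_value hE hud hLow hlt K _ hs]
    obtain ⟨a, b⟩ := gComp_props (p := p) hE hud K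
    have hs' : ‖thetaC p n u η ^ p ^ (h * K)‖ < 1 := by
      rw [norm_pow]; exact pow_lt_one₀ (norm_nonneg _) hs (pow_ne_zero _ hp.ne_zero)
    exact (ev1_small hE a b hs').trans (norm_pow _ _).le
  -- torsion chains
  let z : Fin (n - h) → ℕ → C := fun i m => thetaC p n u (root p (ξ i) (n * m))
  have hroot : ∀ i m, ‖root p (ξ i) m‖ < 1 := fun i m => root_small (hξ.small i) m
  have hz : IsChain (p := p) ud z :=
    { small := fun i m => (hθ _ (hroot i _)).1
      zero := fun i => by show thetaC p n u (root p (ξ i) (n * 0)) = 0; exact hξ.ker i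
      step := fun i m => by
        show pmul (lawAt p n h ud) p (thetaC p n u _) = _
        rw [← hFu, ← (hθ _ (hroot i _)).2.2.1, Nat.mul_succ, Nat.add_comm, root_pow_add] }
  have hind : ∀ N : Fin (n - h) → ℕ,
      psum (lawAt p n h ud) (fun i => pmul (lawAt p n h ud) (N i) (z i 1)) = 0 →
        ∀ i, p ∣ N i := fun N hN i => by
    rw [← hFu] at hN
    simpa using hξ.indep 1 N hN i
  have hHI : IntSer (honda p h C).toPowerSeries := norm_le_one_of_law p (norm_vHonda_le h)
  have hχd : ∀ y : C, ‖y‖ < 1 →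
      ev (fun _ : Unit => y) (pderiv C () (χ : MvPowerSeries Unit C)) ≠ 0 :=
    fun y hy => hom_deriv_ne hE hFuI hHI hχ.int hχ.hom hχ.ne hy
  -- the function on the stratum
  let prS : Fin (n - 1) → MvPowerSeries (Fin (n - h)) C :=
    wExt n h fun l => (MvPowerSeries.X l : MvPowerSeries (Fin (n - h)) C)
  have hprS : ∀ i, IntSer (prS i) ∧ constantCoeff (prS i) = 0 := fun i => by
    simp only [prS, wExt]
    split_ifs
    · exact ⟨intSer_X _, constantCoeff_X _⟩
    · exact ⟨fun d => by simp, map_zero _⟩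
  have hfI : IntSer (MvPowerSeries.map ι f) := fun d => by rw [coeff_map]; exact hι _
  let fd : MvPowerSeries (Fin (n - h)) C := (MvPowerSeries.map ι f).subst prS
  have hfd : IntSer fd := intSer_subst hE hprS hfI
  have hprv : ∀ v : Fin (n - h) → C, Small v → (fun i => ev v (prS i)) = wExt n h v :=
    fun v hv => funext fun i => by
      simp only [prS, wExt]
      split_ifs
      · exact ev_X' hE hv _
      · simp [ev]
  have hfdv : ∀ v, Small v → ev v fd = evK ι (wExt n h v) f := fun v hv => by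
    show ev v (MvPowerSeries.subst _ _) = _
    rw [ev_subst hE hprS hfI hv, hprv v hv]
    rfl
  have hfdd : ∀ l, ev ud (pderiv C l fd) = evK ι u (pderiv (WittVector p k) (idx l) f) := by
    intro l
    show ev ud (pderiv C l (MvPowerSeries.subst _ _)) = _
    rw [ev_pderiv_subst hE hprS hfI hud l, hprv ud hud, ← hu_eq, Finset.sum_eq_single (idx l)]
    · have : prS (idx l) = MvPowerSeries.X l := by
        simp only [prS, wExt, idx]
        rw [dif_pos (by omega)]
        congr 1
        ext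
        simp only
        omega
      rw [this, pderiv_X_self, ← map_one (MvPowerSeries.C : C →+* MvPowerSeries (Fin (n - h)) C),
        ((hE C).2.1 _ ud 1 l hud).1, mul_one, NoIdeal.pderiv_map]
      rfl
    · intro i _ hi
      have : pderiv C l (prS i) = 0 := by
        simp only [prS, wExt]
        split_ifs with hh
        · refine pderiv_X_of_ne fun e => hi ?_
          subst e
          ext
          simp only [idx]
          omega
        · exact map_zero _
      rw [this]
      simp [ev]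
    · simp
  refine ⟨c, hc0, hc1, fun M hM => ?_⟩
  obtain ⟨G, t, ht0, ht1, hGr, hlin, hest⟩ :=
    exists_series hE hF hLaw hLow h1 hlt hud hu0 hz hind hχ.int hχ.hom.1 hχd hfd hM
  refine ⟨G, 1, _, hGr, fun hG i hi => ?_, fun a ha => ?_⟩
  · have h2 := hlin hG ⟨(i : ℕ) + 1 - h, by omega⟩
    rw [hfdd] at h2
    convert h2 using 4
    ext
    simp only [idx]
    omega
  set Q := p ^ (h * M) with hQ
  have hQ1 : 1 < Q := Nat.one_lt_pow (Nat.mul_ne_zero (by omega) (by omega)) hp.one_lt
  refine ⟨(‖t‖ ^ 2)⁻¹ * ‖t‖⁻¹ ^ Q, ?_⟩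
  have htpos : 0 < ‖t‖ := norm_pos_iff.2 ht0
  have hq : 1 < p ^ h := Nat.one_lt_pow (by omega) hp.one_lt
  have hcN : Tendsto (fun N : ℕ => c ^ N) atTop (𝓝 0) :=
    tendsto_pow_atTop_nhds_zero_of_lt_one hc0.le hc1
  have hev : ∀ᶠ N : ℕ in atTop, M ≤ N ∧ c ^ N < ‖t‖ ∧ c ^ N < ‖t‖ ^ 2 ∧
      c ^ p ^ (h * N) < ‖t‖ ^ 2 ∧ c ^ p ^ (h * (N - M)) < ‖t‖ := by
    refine (eventually_ge_atTop M).and ((hcN.eventually_lt_const htpos).and
      ((hcN.eventually_lt_const (pow_pos htpos 2)).and ?_))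
    have e1 : Tendsto (fun N : ℕ => c ^ p ^ (h * N)) atTop (𝓝 0) := by
      simp only [pow_mul]
      exact (tendsto_pow_atTop_nhds_zero_of_lt_one hc0.le hc1).comp
        (tendsto_pow_atTop_atTop_of_one_lt hq)
    exact (e1.eventually_lt_const (pow_pos htpos 2)).and
      ((e1.comp (tendsto_sub_atTop_nat M)).eventually_lt_const htpos)
  filter_upwards [hev, eventually_ge_atTop 1] with N hN hN1
  obtain ⟨hMN, hNt, hNt2, hNω, hNz⟩ := hN
  -- the automorphism
  set g := gDeep p n k a N with hgdef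
  obtain ⟨hgAut, hdeep⟩ := (hA p n hn1 k hk).2.2 a N hN1 ha
  obtain ⟨γ, ⟨φ, hγ⟩, -⟩ := (hA p n hn1 k hk).1 g 0 hgAut
  obtain ⟨-, -, hγX, -, hγev⟩ := (hA p n hn1 k hk).2.1 g 0 γ φ hgAut hγ
  obtain ⟨hx's, hγf⟩ := hγev C ι hι hιp u hu
  let x' : Fin (n - 1) → C := fun i => evu (γ (MvPowerSeries.X i))
  have hevuX : ∀ i, evu (MvPowerSeries.X i) = u i := fun i => by
    show ev u (MvPowerSeries.map ι _) = u i
    rw [MvPowerSeries.map_X]; exact ev_X' hE hu i
  have hx'low : ∀ i : Fin (n - 1), (i : ℕ) + 1 < h → x' i = 0 := fun i hi => by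
    obtain ⟨cc, -, hcc⟩ := hγX i
    have hker : hIdeal p n k ((i : ℕ) + 1) ≤ RingHom.ker evu := by
      rw [hIdeal, if_neg (by omega), Ideal.span_le]
      rintro x (rfl | ⟨l, hl, rfl⟩)
      · show evu (p : LT p n k) = 0
        rw [map_natCast, CharP.cast_eq_zero]
      · show evu (MvPowerSeries.X l) = 0
        have hl' : (l : ℕ) + 1 < (i : ℕ) + 1 := hl
        rw [hevuX]; exact hpt.low l (by omega)
    have h2 : evu (γ (MvPowerSeries.X i) - cc * MvPowerSeries.X i) = 0 := hker hcc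
    rw [map_sub, map_mul, hevuX, hpt.low i hi, mul_zero, sub_zero] at h2
    exact h2
  -- congruence to `u`
  have hev1 : ∀ x, ‖evu x‖ ≤ 1 := fun x =>
    ((hE C).1 _ u (MvPowerSeries.map ι x) (MvPowerSeries.map ι x) hu
      (fun d => by rw [coeff_map]; exact hι _) (fun d => by rw [coeff_map]; exact hι _)).2.2.2.2.2.1
  have hm : ∀ x ∈ mIdeal p n k, ‖evu x‖ ≤ c := by
    let I : Ideal (LT p n k) :=
      { carrier := {x | ‖evu x‖ ≤ c}
        add_mem' := fun {x y} hx hy => by
          show ‖evu (x + y)‖ ≤ c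
          rw [map_add]; exact (IsUltrametricDist.norm_add_le_max _ _).trans (max_le hx hy)
        zero_mem' := by show ‖evu 0‖ ≤ c; rw [map_zero, norm_zero]; exact hc0.le
        smul_mem' := fun x y hy => by
          show ‖evu (x * y)‖ ≤ c
          rw [map_mul, norm_mul]
          exact (mul_le_of_le_one_left (norm_nonneg _) (hev1 x)).trans hy }
    intro x hx
    refine (show mIdeal p n k ≤ I from ?_) hx
    rw [mIdeal, Ideal.span_le]
    rintro y (rfl | ⟨l, rfl⟩)
    · show ‖evu (p : LT p n k)‖ ≤ c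
      rw [map_natCast, CharP.cast_eq_zero, norm_zero]; exact hc0.le
    · show ‖evu (MvPowerSeries.X l)‖ ≤ c
      rw [hevuX]; exact huc l
  have hmN : ∀ (K : ℕ) (x : LT p n k), x ∈ mIdeal p n k ^ K → ‖evu x‖ ≤ c ^ K := by
    intro K
    induction K with
    | zero =>
      intro x _
      rw [pow_zero]
      exact hev1 x
    | succ K ih =>
      intro x hx
      rw [pow_succ] at hx
      refine Submodule.mul_induction_on hx (fun a ha b hb => ?_) fun a b ha hb => ?_
      · rw [map_mul, norm_mul, pow_succ]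
        exact mul_le_mul (ih a ha) (hm b hb) (norm_nonneg _) (pow_nonneg hc0.le K)
      · rw [map_add]; exact (IsUltrametricDist.norm_add_le_max _ _).trans (max_le ha hb)
  have hxd : ∀ i, ‖x' i - u i‖ ≤ c ^ N := fun i => by
    rw [← hevuX i]
    show ‖evu _ - evu _‖ ≤ _
    rw [← map_sub]
    exact hmN N _ (hdeep γ φ hγ i)
  have hx'c : ∀ i, ‖x' i‖ ≤ c := fun i => by
    have h2 := IsUltrametricDist.norm_add_le_max (x' i - u i) (u i)
    rw [sub_add_cancel] at h2
    exact h2.trans (max_le ((hxd i).trans ((pow_le_pow_of_le_one hc0.le hc1.le hN1).trans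
      (pow_one c).le)) (huc i))
  let v' : Fin (n - h) → C := fun l => x' (idx l)
  have hx'eq : x' = wExt n h v' := hext x' hx'low
  have hv's : Small v' := fun l => (hx'c _).trans_lt hc1
  obtain ⟨hlip, hfun⟩ := hθ' x' hx'c
  -- the homomorphism
  set φu := PowerSeries.map evu φ with hφu
  have hφuI : IntSer (φu : MvPowerSeries Unit C) := fun d => by
    show ‖coeff d (MvPowerSeries.map evu (φ : MvPowerSeries Unit (LT p n k)))‖ ≤ 1
    rw [coeff_map]
    exact hev1 _
  have hφhom : IsHom (law p (vTuple n u)) (law p (vTuple n x')) φu := by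
    have h2 := map_isHom evu hγ.2.1
    have e1 : (univLaw p n k).map evu = law p (vTuple n u) := by
      rw [univLaw, law_map]
      congr 1
      funext i
      rw [map_vTuple]
      simp only [hevuX]
    have e2 : ((univLaw p n k).map γ).map evu = law p (vTuple n x') := by
      rw [univLaw, law_map, law_map]
      congr 1
      funext i
      rw [map_vTuple, map_vTuple]
    rwa [e1, e2] at h2
  set gC := PowerSeries.map j g with hgC
  have hclose : ∀ m, ‖PowerSeries.coeff m φu - PowerSeries.coeff m gC‖ ≤ c := fun m => by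
    rw [hφu, hgC, PowerSeries.coeff_map, PowerSeries.coeff_map, ← hγ.2.2,
      PowerSeries.coeff_map]
    set b := PowerSeries.coeff m φ
    have hjr : j (res p n k b) = evu (MvPowerSeries.C (constantCoeff b)) := by
      show _ = ev u (MvPowerSeries.map ι _)
      rw [MvPowerSeries.map_C]
      have hne : Nonempty (Fin (n - 1)) := ⟨⟨0, by omega⟩⟩
      rw [((hE C).2.1 _ u _ hne.some hu).1]
      rfl
    rw [hjr, ← map_sub]
    show ‖ev u (MvPowerSeries.map ι _)‖ ≤ c
    refine norm_ev_le' hE hu (fun d => by rw [coeff_map]; exact hι _) ?_ hc0.le huc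
    rw [constantCoeff_map, map_sub, constantCoeff_C, sub_self, map_zero]
  have hgfix : ∀ m, PowerSeries.coeff m gC ^ p ^ n = PowerSeries.coeff m gC := fun m => by
    rw [hgC, PowerSeries.coeff_map, ← map_pow, ← hk, FiniteField.pow_card]
  have hgI : IntSer (gC : MvPowerSeries Unit C) := intSer_mapj j g
  have hg0 : PowerSeries.constantCoeff g = 0 := hgAut.1.1
  have hθg : ∀ η : C, ‖η‖ < 1 → thetaC p n x' (act j g η) = ev1 (thetaC p n u η) φu :=
    hfun φu gC hφuI hgI (const_mapj j hg0) hgfix hφhom hclose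
  -- the deep series on the roots
  have hHn : IntSer (honda p n C).toPowerSeries := norm_le_one_of_law p (norm_vHonda_le n)
  have hXP : ∀ η : C, ‖η‖ < 1 → act j g η =
      padd (honda p n C) η (act j a (η ^ p ^ (n * N))) := fun η hη => by
    have hne : p ^ (n * N) ≠ 0 := pow_ne_zero _ hp.ne_zero
    have hXa : PowerSeries.constantCoeff ((PowerSeries.X : PowerSeries k) ^ p ^ (n * N)) = 0 := by
      rw [map_pow, PowerSeries.constantCoeff_X, zero_pow hne]
    have hsub : PowerSeries.constantCoeff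
        (a.subst ((PowerSeries.X : PowerSeries k) ^ p ^ (n * N))) = 0 :=
      ps_constantCoeff ha.1 hXa
    show ev (fun _ : Unit => η) (MvPowerSeries.map j (gDeep p n k a N)) = _
    rw [gDeep, map_fadd_endo j _ (a := (PowerSeries.X : PowerSeries k)) (constantCoeff_X _) hsub,
      honda_map]
    refine (ev_fadd hE hHn (intSer_mapj j _) (const_mapj j (constantCoeff_X _))
      (intSer_mapj j _) (const_mapj j hsub) fun _ => hη).trans ?_
    have e1 : MvPowerSeries.map j (PowerSeries.X : PowerSeries k) = MvPowerSeries.X () :=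
      MvPowerSeries.map_X j ()
    have e2 : ev (fun _ : Unit => η)
        (MvPowerSeries.map j (a.subst ((PowerSeries.X : PowerSeries k) ^ p ^ (n * N)))) =
        act j a (η ^ p ^ (n * N)) := by
      rw [PowerSeries.map_subst (PowerSeries.HasSubst.of_constantCoeff_zero' hXa)]
      refine (ev_psSubst hE (intSer_mapj j a) (intSer_mapj j _) (const_mapj j hXa)
        fun _ => hη).trans ?_
      show ev1 (act j (PowerSeries.X ^ p ^ (n * N)) η) _ = ev1 (η ^ p ^ (n * N)) _
      congr 1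
      have hX1 : IsEndo (honda p n k) (PowerSeries.X : PowerSeries k) := by
        have := IsHom.pow_prime_pow (p := p) (honda p n k) (honda_fixed p n k) 0
        simpa [IsEndo] using this
      rw [act_pow j hE hX1 hη]
      congr 1
      show ev (fun _ : Unit => η) (MvPowerSeries.map j (PowerSeries.X : PowerSeries k)) = η
      rw [e1]; exact ev_X' hE (fun _ => hη) ()
    refine congrArg₂ (padd _) ?_ e2
    exact (congrArg (ev fun _ : Unit => η) e1).trans (ev_X' hE (fun _ => hη) ())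
  have hactpow : ∀ (b : PowerSeries k), ∀ η : C, ‖η‖ < 1 → ∀ K : ℕ,
      act j b η ^ p ^ (n * K) = act j b (η ^ p ^ (n * K)) := fun b η hη K => by
    have h2 := ev_pow_char (p := p) hE (fun _ : Unit => hη) (intSer_mapj j b) (n * K)
    refine h2.trans ?_
    congr 1
    refine MvPowerSeries.ext fun d => ?_
    rw [coeff_map, iterateFrobenius_def]
    show coeff d (MvPowerSeries.map j (b : MvPowerSeries Unit k)) ^ _ = _
    rw [coeff_map, ← map_pow, pow_mul, ← hk, FiniteField.pow_card_pow]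
    rfl
  let ζ : Fin (n - h) → C := fun i => act j a (ξ i)
  have hζc : ∀ i, ‖ζ i‖ ≤ c := fun i =>
    (ev1_small hE (intSer_mapj j a) (const_mapj j ha.1) (hξ.small i)).trans (hξc i)
  have hζs : ∀ i, ‖ζ i‖ < 1 := fun i => (hζc i).trans_lt hc1
  have hθζ : ∀ i, ‖thetaC p n u (ζ i)‖ ≤ c := fun i => by
    have h2 := IsUltrametricDist.norm_add_le_max (thetaC p n u (ζ i) - ζ i) (ζ i)
    rw [sub_add_cancel] at h2
    exact h2.trans (max_le (hθ _ (hζs i)).2.1 (hζc i))
  have hgη : ∀ i m, m ≤ N → act j g (root p (ξ i) (n * m)) =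
      padd (honda p n C) (root p (ξ i) (n * m)) (ζ i ^ p ^ (n * (N - m))) := fun i m hm => by
    rw [hXP _ (hroot i _), hactpow a _ (hξ.small i)]
    congr 2
    rw [show n * N = n * m + n * (N - m) by rw [← Nat.mul_add, Nat.add_sub_cancel' hm], pow_add,
      pow_mul, root_pow_self]
  -- the deformed chain
  let z' : Fin (n - h) → ℕ → C := fun i m => ev1 (z i m) φu
  have hFx : law p (vTuple n x') = lawAt p n h v' := by rw [lawAt, ← hx'eq]
  have hFxI : IntSer (law p (vTuple n x')).toPowerSeries := hFx ▸ intSer_lawAt p n h hv's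
  have hz' : IsChain (p := p) v' z' :=
    { small := fun i m => (ev1_small hE hφuI hφhom.1 (hz.small i m)).trans_lt (hz.small i m)
      zero := fun i => by
        show ev1 (z i 0) φu = 0
        rw [hz.zero]; exact ev1_zero_of_const hE hφuI hφhom.1
      step := fun i m => by
        show pmul _ p (ev1 (z i (m + 1)) φu) = ev1 (z i m) φu
        rw [← hz.step i m, ← hFu, ← hFx,
          hom_pmul hE hFuI hFxI hφuI hφhom p (hz.small i (m + 1))] }
  have hfv : ev v' fd = 0 := by
    rw [hfdv v' hv's, ← hx'eq]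
    have h2 := hγf f
    rw [hf g γ φ hgAut hγ] at h2
    rw [pow_zero] at h2
    exact h2.symm
  have hζpow : ∀ i K, ‖ζ i ^ p ^ K‖ < 1 := fun i K => by
    rw [norm_pow]; exact pow_lt_one₀ (norm_nonneg _) (hζs i) (pow_ne_zero _ hp.ne_zero)
  have hgs : ∀ i m, ‖act j g (root p (ξ i) (n * m))‖ < 1 := fun i m => act_small j hE hgAut.1 (hroot i _)
  have hzz : ∀ i m, m ≤ M → ‖z' i m - z i m‖ < ‖t‖ := fun i m hm => by
    have e1 : z' i m = thetaC p n x' (act j g (root p (ξ i) (n * m))) := (hθg _ (hroot i _)).symm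
    have e2 : thetaC p n u (act j g (root p (ξ i) (n * m))) =
        padd (law p (vTuple n u)) (z i m) (thetaC p n u (ζ i ^ p ^ (n * (N - m)))) := by
      rw [hgη i m (hm.trans hMN), (hθ _ (hroot i _)).2.2.2 _ (hζpow i _)]
    have b1 : ‖thetaC p n x' (act j g (root p (ξ i) (n * m))) -
        thetaC p n u (act j g (root p (ξ i) (n * m)))‖ ≤ c ^ N := by
      rw [norm_sub_rev]
      exact hlip _ (pow_nonneg hc0.le N) (fun l => by rw [norm_sub_rev]; exact hxd l) _ (hgs i m)
    have b2 : ‖thetaC p n u (act j g (root p (ξ i) (n * m))) - z i m‖ ≤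
        c ^ p ^ (h * (N - M)) := by
      rw [e2]
      refine (norm_padd_sub_left_le hE hFuI (hz.small i m) (hθ _ (hζpow i _)).1).trans ?_
      refine (hθ0 _ (hζs i) (N - m)).trans ((pow_le_pow_left₀ (norm_nonneg _) (hθζ i) _).trans ?_)
      exact pow_le_pow_of_le_one hc0.le hc1.le
        (Nat.pow_le_pow_right hp.pos (Nat.mul_le_mul_left h (by omega)))
    have h2 := IsUltrametricDist.norm_add_le_max
      (z' i m - thetaC p n u (act j g (root p (ξ i) (n * m))))
      (thetaC p n u (act j g (root p (ξ i) (n * m))) - z i m)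
    rw [sub_add_sub_cancel] at h2
    refine h2.trans_lt (max_lt ?_ (b2.trans_lt hNz))
    rw [e1]; exact b1.trans_lt hNt
  let w : Fin (n - h) → C := fun i => tMap p n u χ (ζ i) ^ p ^ (h * N)
  have hwω : ∀ i, ‖w i‖ ≤ c ^ p ^ (h * N) := fun i => by
    show ‖_ ^ _‖ ≤ _
    rw [norm_pow]
    exact pow_le_pow_left₀ (norm_nonneg _)
      ((ev1_small hE hχ.int hχ.hom.1 (hθ _ (hζs i)).1).trans (hθζ i)) _
  have hTpow : ∀ (K : ℕ) (η : C), ‖η‖ < 1 →
      tMap p n u χ (η ^ p ^ (n * K)) = tMap p n u χ η ^ p ^ (h * K) := by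
    intro K
    induction K with
    | zero => intro η _; simp
    | succ K ih =>
      intro η hη
      have h2 : ‖η ^ p ^ (n * K)‖ < 1 := by
        rw [norm_pow]; exact pow_lt_one₀ (norm_nonneg _) hη (pow_ne_zero _ hp.ne_zero)
      rw [Nat.mul_succ, pow_add, pow_mul, tMap_pow hE hLow hTh hpt hχ h2, ih η hη, ← pow_mul,
        ← pow_add, Nat.mul_succ]
  obtain ⟨hGcI, hGc0⟩ := gComp_props (p := p) hE hud M
  have hδ : ∀ δ : ℝ, 0 ≤ δ → (∀ l, ‖v' l - ud l‖ ≤ δ) → ∀ i,
      ‖ev1 (ev1 (z' i M ^ Q) (gComp (p := p) ud M)) χ - w i‖ ≤ δ ^ Q := fun δ hδ0 hvd i => by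
    set η := root p (ξ i) (n * M) with hη
    set x'' := thetaC p n u (act j g η) with hx''
    have hx''s : ‖x''‖ < 1 := (hθ _ (hgs i M)).1
    have e1 : ev1 (ev1 (x'' ^ Q) (gComp (p := p) ud M)) χ = w i := by
      rw [hQ, gComp_value hE hud hLow hlt M _ hx''s, ← hFu, hx'', ← hθiter M _ (hgs i M),
        hactpow g η (hroot i _), hη, root_pow_self, hXP _ (hξ.small i),
        ← hactpow a _ (hξ.small i)]
      show ev1 (thetaC p n u _) χ = _
      rw [(hθ _ (hξ.small i)).2.2.2 _ (hζpow i _)]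
      have h0 : thetaC p n u (ξ i) = 0 := hξ.ker i
      rw [h0, padd_comm' hE hFuI ((hLaw p).1 C _) (by simp) (hθ _ (hζpow i _)).1,
        padd_zero' hE hFuI (hθ _ (hζpow i _)).1]
      exact hTpow N _ (hζs i)
    rw [← e1]
    have hyl : ‖z' i M ^ Q - x'' ^ Q‖ ≤ δ ^ Q := by
      rw [hQ, ← sub_pow_char_pow, norm_pow]
      refine pow_le_pow_left₀ (norm_nonneg _) ?_ _
      rw [show z' i M = thetaC p n x' (act j g η) from (hθg _ (hroot i _)).symm, norm_sub_rev]
      refine hlip δ hδ0 (fun l => ?_) _ (hgs i M)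
      rw [norm_sub_rev, hu_eq, hx'eq]
      unfold wExt
      split_ifs
      · exact hvd _
      · simpa using hδ0
    have hsQ : ∀ y : C, ‖y‖ < 1 → ‖y ^ Q‖ < 1 := fun y hy => by
      rw [norm_pow]; exact pow_lt_one₀ (norm_nonneg _) hy (by omega)
    have h2 := norm_ev_sub_le' hE (x := fun _ : Unit => z' i M ^ Q) (y := fun _ : Unit => x'' ^ Q)
      (fun _ => hsQ _ (hz'.small i M)) (fun _ => hsQ _ hx''s) hGcI (pow_nonneg hδ0 Q)
      (fun _ => hyl)
    exact norm_ev_sub_le' hE
      (fun _ => (ev1_small hE hGcI hGc0 (hsQ _ (hz'.small i M))).trans_lt (hsQ _ (hz'.small i M)))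
      (fun _ => (ev1_small hE hGcI hGc0 (hsQ _ hx''s)).trans_lt (hsQ _ hx''s))
      hχ.int (pow_nonneg hδ0 Q) (fun _ => h2)
  have hr0 : 0 ≤ c ^ N := pow_nonneg hc0.le N
  have hcN1 : c ^ N ≤ 1 := pow_le_one₀ hc0.le hc1.le
  have hfin := hest v' z' w (c ^ p ^ (h * N)) (c ^ N) hv's hz' hfv (fun l => hxd _) hNt
    ((pow_le_of_le_one hr0 hcN1 (by omega)).trans_lt hNt2)
    ((pow_le_of_le_one hr0 hcN1 (by omega)).trans_lt hNt) hzz hwω hNω hδ
  have e : (fun i => tMap p n u χ (ev1 (ξ i) (PowerSeries.map j a)) ^ (p ^ h) ^ N) = w := by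
    funext i
    show _ = tMap p n u χ (ζ i) ^ p ^ (h * N)
    rw [pow_mul]
    rfl
  rw [e]
  refine hfin.trans (le_of_eq ?_)
  rw [mul_pow, ← pow_mul c, ← pow_mul, hQ, ← pow_add, ← Nat.mul_add, mul_assoc]

end Vale.Agent.P217

end
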